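import Vale.Agent.P318.E.Near2
import Vale.Agent.P318.E.Block

/-!
The block lemma with a constant which is polynomial in the window parameter.
-/

namespace Vale.Agent.P318.E

open Finset MeasureTheory ProbabilityTheory
open M (ind tm Per BM ip fc gm cube chi kap k0 bb A0 A1 Dual Lat lin Inv U01 Ksh torus_proof nsq)
open M.Block (bm_int bm_const bm_mul bm_add bm_sub bm_sq bm_abs bm_comp bm_sum bm_of_mem bm_ind
  ind_sq tm_mono tm_nonneg tm_add tm_sub tm_cmul tm_const tm_sum abs_tm_le tm_cs tm_sq_le ip_add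
  ip_smul ip_single meas_ip tm_le_sqrt tm_mul_le bm_line bm_corr chi_le bm_chi exists_shift
  meas_lin exp_small)
open C

/-- The constant of the near estimate. -/
noncomputable def nearC (ω W δ C1 B : ℝ) : ℝ :=
  2 / (δ / (2 * ((1 + 6 / W) * (C1 * (8 * W ^ 2 / ω ^ 2))) + 1)) + 32 * (W / ω * (16 + 2 * B)) +
    96 * (W / ω * (16 + 2 * B) / ω) + 16 * (W / ω * (16 + 2 * B) * (1 / Real.sqrt ω))

theorem nearC_le {r C1 : ℝ} (r0 : 0 < r) (r1 : r ≤ 1) (hC : 0 ≤ C1) :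
    (72 * nearC (r ^ 16) (2 / r) (r ^ 2 / 24) C1 (64 / (r ^ 16) ^ 2) / r ^ 2 + 1) * (r ^ 16) ^ 5 ≤
      10 ^ 7 * (C1 + 1) := by
  have hs : Real.sqrt (r ^ 16) = r ^ 8 := by
    rw [show r ^ 16 = (r ^ 8) ^ 2 by ring, Real.sqrt_sq (by positivity)]
  have e : (72 * nearC (r ^ 16) (2 / r) (r ^ 2 / 24) C1 (64 / (r ^ 16) ^ 2) / r ^ 2 + 1) *
      (r ^ 16) ^ 5 = 221184 * C1 * r ^ 42 + 663552 * C1 * r ^ 43 + 3456 * r ^ 76 +
        73728 * r ^ 61 + 589824 * r ^ 29 + 221184 * r ^ 45 + 1769472 * r ^ 13 +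
        36864 * r ^ 53 + 294912 * r ^ 21 + r ^ 80 := by
    unfold nearC
    rw [hs]
    field_simp
    ring
  have p : ∀ k : ℕ, r ^ k ≤ 1 := fun k => pow_le_one₀ r0.le r1
  rw [e]
  linarith [p 76, p 61, p 29, p 45, p 13, p 53, p 21, p 80, mul_le_mul_of_nonneg_left (p 42) hC,
    mul_le_mul_of_nonneg_left (p 43) hC]

/-- `Near2Stmt` with a bound for the constant. -/
def Near3Stmt : Prop :=
  ∀ ω W δ C1 B : ℝ, 0 < ω → 0 < W → 0 < δ → 0 ≤ C1 → 0 ≤ B →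
    ∃ C : ℝ, 0 < C ∧ C ≤ nearC ω W δ C1 B ∧ ∀ w : Wn, w.Ok → w.om = ω →
      ∀ (ι κ : Type) [Fintype ι] [DecidableEq ι] [Fintype κ] [Nonempty κ]
      (Γ : AddSubgroup (κ → ℝ)) (J : Finset ι) (s : ι → κ → ℤ) (t : ι → ℝ) (h : (ι → ℤ) → ℝ)
      (σ ε l l' : ℝ) (χ : ι → ℝ → ℝ) (m : ι → ℝ),
      (∀ n : κ → ℤ, (fun k => (n k : ℝ)) ∈ Γ) → (∀ j, j ∉ J → s j = 0) → U01 h → Inv Γ s h →
      0 < σ → W ^ 2 = σ ^ 2 * Fintype.card κ → (∀ j, T3 (s j)) → ZPat J s →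
      SplitT J s (C1 * Fintype.card κ) (ε ^ 2 * Fintype.card κ) → 0 ≤ ε → 1 ≤ l → 1 ≤ l' →
      (∀ j, Measurable (χ j)) → (∀ j u, |χ j u| ≤ 1) → (∀ j, |m j| ≤ 1) → ∑ j ∈ J, m j ^ 2 ≤ B →
      |∑ j ∈ J, ∫ ξ, (if |ip (s j) ξ| < 1 / 2 then χ j (ip (s j) ξ) else 0) *
          tm (fun η => pq w ((t + lin s η) j) * (c1 w h j (t + lin s η) - m j) *
            psi w ((t + lin s (η + ξ)) j) *
            (c1 w h j (t + lin s η) - c1 w h j (t + lin s (η + ξ)))) ∂gm κ σ| ≤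
        δ * (∑ j ∈ J, tm fun η => pq w ((t + lin s η) j) * (c1 w h j (t + lin s η) - m j) ^ 2) +
          C * (Fi w * tm (fun η => W2 w J h (t + lin s η)) +
            (Real.sqrt l + l' * w.et) * ε * tm (fun η => Inf w J h (t + lin s η)) +
            ε * (Real.sqrt (J.card / w.et) * Real.exp (-l) + J.card * Real.exp (-l')))

/-- `BlockEStmt` with a bound for the constant. -/
def Block3Stmt : Prop :=
  ∀ c0 : ℝ, 0 < c0 → ∃ ω0 : ℝ, 0 < ω0 ∧ ∀ C1 : ℝ, 0 ≤ C1 → ∃ C0 : ℝ, 0 < C0 ∧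
    ∀ ω : ℝ, 0 < ω → ω ≤ ω0 → ∃ C : ℝ, 1 ≤ C ∧ C * ω ^ 5 ≤ C0 ∧ ∀ w : Wn, w.Ok → w.om = ω →
      ∀ (ι κ : Type) [Fintype ι] [DecidableEq ι] [Fintype κ] [Nonempty κ]
      (Γ : AddSubgroup (κ → ℝ)) (J : Finset ι) (s : ι → κ → ℤ) (ε l l' : ℝ),
      Lat Γ (c0 * Fintype.card κ) → (∀ j, Dual Γ (s j)) → (∀ j, T3 (s j)) →
      (∀ j ∈ J, (Fintype.card κ : ℝ) / 4 ≤ ∑ k, (s j k : ℝ) ^ 2) → (∀ j, j ∉ J → s j = 0) →
      ZPat J s → SplitT J s (C1 * Fintype.card κ) (ε ^ 2 * Fintype.card κ) → Ksh J s (ε ^ 2) →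
      0 ≤ ε → 1 ≤ l → 1 ≤ l' →
      BlockAt w (C * Fi w ^ 2) (C * Fi w * (Real.sqrt l + l' * w.et) * ε)
        (C * Fi w * (ε * (Real.sqrt (J.card / w.et) * Real.exp (-l) + J.card * Real.exp (-l'))))
        Γ J s

open Near2 C.Near in
theorem near3_proof (hW : WinStmt) (hG : GaussStmt) (hD : DerivStmt) (hS : SmallStmt)
    (hS2 : Small2Stmt) : Near3Stmt := by
  intro ω W δ C1 B h0 hWp hδ hC1 hB
  set K1 := W / ω * (16 + 2 * B) with hK1
  set K3 := (1 + 6 / W) * (C1 * (8 * W ^ 2 / ω ^ 2)) with hK3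
  have pK1 : 0 < K1 := by positivity
  have pK3 : 0 ≤ K3 := by positivity
  set lam := δ / (2 * K3 + 1) with hlam
  have plam : 0 < lam := by positivity
  set K2 := 1 / Real.sqrt ω with hK2
  have pK2 : 0 ≤ K2 := by positivity
  refine ⟨2 / lam + 32 * K1 + 96 * (K1 / ω) + 16 * (K1 * K2), by positivity, le_rfl, ?_⟩
  intro w ok hω ι κ _ _ _ _ Γ J s t h σ ε l l' χ m hΓ hs hh hI hσ hWσ hT hZ hSp hε hl hl' χm χb
    mb mB
  subst hω
  let d : Dt ι κ := ⟨w, J, s, t, h, χ, m⟩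
  have H : Hyp d B := mkHyp hW hD d ok hΓ hs hh hI χm χb mb mB
  obtain ⟨i1, e1⟩ := H.near_eq σ
  have e2 : ∑ j ∈ J, ∫ ξ, (if |ip (s j) ξ| < 1 / 2 then χ j (ip (s j) ξ) else 0) *
      tm (fun η => pq w ((t + lin s η) j) * (c1 w h j (t + lin s η) - m j) *
        psi w ((t + lin s (η + ξ)) j) *
        (c1 w h j (t + lin s η) - c1 w h j (t + lin s (η + ξ)))) ∂gm κ σ =
      -∫ r in Set.Ioc (0 : ℝ) 1, ∑ j ∈ J, d.N σ j r := by
    rw [integral_finsetSum _ fun j _ => i1 j, ← sum_neg_distrib]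
    exact sum_congr rfl fun j _ => e1 j
  have nD : 0 ≤ ∑ j ∈ J, tm fun η => pq w ((t + lin s η) j) * (c1 w h j (t + lin s η) - m j) ^ 2 :=
    sum_nonneg fun j _ => integral_nonneg fun η => H.dd_nonneg _ _
  have n2 : 0 ≤ tm fun η => W2 w J h (t + lin s η) := integral_nonneg fun η => H.W2nn _
  have nI : 0 ≤ tm fun η => Inf w J h (t + lin s η) := integral_nonneg fun η => H.Inn _
  have hF : 0 < Fi w := zero_lt_one.trans_le H.W.Fi_ge
  have he : 0 < w.et := H.et_pos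
  have hl0 : 0 ≤ l' := zero_le_one.trans hl'
  have key := fun r (hr : r ∈ Set.Ioc (0 : ℝ) 1) =>
    N_le H hG hS hS2 hB hσ hWp hWσ hC1 hε hl hl' plam hT hZ hSp hr.1 hr.2
  set D := ∑ j ∈ J, tm fun η => pq w ((t + lin s η) j) * (c1 w h j (t + lin s η) - m j) ^ 2
    with hDdef
  set w2 := tm fun η => W2 w J h (t + lin s η) with hw2
  set I := tm fun η => Inf w J h (t + lin s η) with hIdef
  obtain ⟨i2, e3⟩ := int_bound (Fi w * w2 / lam + lam * K3 * D + 16 * Real.sqrt l * (ε * K1) * I +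
    2 * (ε * K1) * er d l l') (b := 8 * l' * (ε * K1) * I)
    (c := 2 * w.et / w.om) (by positivity) (by positivity)
  have hb := norm_integral_le_of_norm_le (f := fun r => ∑ j ∈ J, d.N σ j r) i2
    ((ae_restrict_mem measurableSet_Ioc).mono key)
  rw [e2, abs_neg]
  refine (le_of_eq (Real.norm_eq_abs _).symm).trans (hb.trans (e3.trans ?_))
  have b1 : 2 * (lam * K3 * D) ≤ δ * D := by
    have : 2 * (lam * K3) ≤ δ := by
      rw [hlam, div_mul_eq_mul_div, ← mul_div_assoc, div_le_iff₀ (by positivity)]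
      nlinarith
    nlinarith
  have q1 : 0 ≤ Fi w * w2 := by positivity
  have q2 : 0 ≤ Real.sqrt l * ε * I := by positivity
  have q3 : 0 ≤ l' * w.et * ε * I := by positivity
  have q4 : 0 ≤ ε * (J.card * Real.exp (-l')) := by positivity
  have q5 : 0 ≤ ε * (Real.sqrt (J.card / w.et) * Real.exp (-l)) := by positivity
  have e4 : er d l l' = 4 * (K2 * Real.sqrt (J.card / w.et)) * Real.exp (-l) +
      J.card * (24 / w.om * Real.exp (-l')) := by
    rw [hK2, one_div, ← Real.sqrt_inv, ← Real.sqrt_mul (inv_pos.2 h0).le, ← div_eq_inv_mul, div_div,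
      mul_comm w.et]
    rfl
  have p1 : 0 ≤ 2 / lam := by positivity
  have p3 : 0 ≤ K1 / w.om := by positivity
  have p4 : 0 ≤ K1 * K2 := by positivity
  have t1 := mul_nonneg p1 (add_nonneg (add_nonneg (add_nonneg q2 q3) q4) q5)
  have t2 := mul_nonneg pK1.le (add_nonneg (add_nonneg (add_nonneg q1 q3) q4) q5)
  have t3 := mul_nonneg p3 (add_nonneg (add_nonneg q1 q2) q5)
  have t4 := mul_nonneg p3 q3
  have t5 := mul_nonneg p4 (add_nonneg (add_nonneg (add_nonneg q1 q2) q3) q4)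
  rw [e4]
  linear_combination b1 + t1 + 32 * t2 + 96 * t3 + 80 * t4 + 16 * t5

open C.Block2 in
theorem block3_proof (hW : WinStmt) (hL : LineStmt) (hD : DerivStmt) (hN : Near3Stmt) :
    Block3Stmt := by
  intro c0 hc
  obtain ⟨r0, p0, p1, hp⟩ := params hc
  refine ⟨r0 ^ 16, by positivity, fun C1 hC => ⟨10 ^ 7 * (C1 + 1), by positivity,
    fun ω h0 h1 => ?_⟩⟩
  obtain ⟨r, rp, rfl⟩ : ∃ r : ℝ, 0 < r ∧ r ^ 16 = ω :=
    ⟨ω ^ (((16 : ℕ) : ℝ)⁻¹), by positivity, Real.rpow_inv_natCast_pow h0.le (by norm_num)⟩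
  have rr0 := le_of_pow_le_pow_left₀ (by norm_num) p0.le h1
  have hp' := hp r rp rr0
  have hb := nearC_le rp (by linarith) hC
  obtain ⟨C, C0, Cb, hC⟩ := hN (r ^ 16) (2 / r) (r ^ 2 / 24) C1 (64 / (r ^ 16) ^ 2) h0 (by positivity)
    (by positivity) hC (by positivity)
  have Cp : 0 < 72 * C / r ^ 2 := by positivity
  refine ⟨72 * C / r ^ 2 + 1, by linarith, le_trans (by gcongr) hb, ?_⟩
  intro w hw hom ι κ _ _ _ _ Γ J s ε l l' hLat hd ht3 hn hJ hZ hS hK e0 hl hl' t h hU hi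
  have R := hW w hw
  have cp : (0 : ℝ) < Fintype.card κ := Nat.cast_pos.2 Fintype.card_pos
  obtain ⟨σ, hσd⟩ : ∃ σ : ℝ, σ = 2 / r / Real.sqrt (Fintype.card κ) := ⟨_, rfl⟩
  have σ0 : 0 < σ := by rw [hσd]; positivity
  have hσ : (2 / r) ^ 2 = σ ^ 2 * Fintype.card κ := by
    rw [hσd, div_pow (2 / r), Real.sq_sqrt cp.le, div_mul_cancel₀ _ cp.ne']
  have bc := bm_c1 hD hw hU s t
  have bP : ∀ j, BM fun η => psi w (t j + ip (s j) η) := fun j => bm_line (bm_psi R) _ _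
  have bq : ∀ j, BM fun η => pq w (t j + ip (s j) η) := fun j => bm_line (bm_pq R) _ _
  have bd : ∀ j, BM fun η => dpr w (t j + ip (s j) η) := fun j => bm_line (bm_dpr R) _ _
  obtain ⟨-, cb, -, wb, -⟩ := hD ι w h hw hU
  have c1le : ∀ j y, |c1 w h j y| ≤ 1 := fun j y => ((cb j).2.2 y).1.trans ((cb j).2.2 y).2
  obtain ⟨m, hm⟩ : ∃ m : ι → ℝ, ∀ j, m j =
      tm (fun η => psi w (t j + ip (s j) η) * c1 w h j (t + lin s η)) /
        tm fun η => psi w (t j + ip (s j) η) := ⟨_, fun _ => rfl⟩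
  have m1 : ∀ j, |m j| ≤ 1 := fun j => by
    rw [hm, abs_div, abs_of_nonneg (tm_nonneg fun η => R.psi_nonneg (t j + ip (s j) η))]
    refine div_le_one_of_le₀ ((abs_tm_le _).trans (tm_mono (bm_abs (bm_mul (bP j) (bc j))) (bP j)
      fun η => ?_)) (tm_nonneg fun η => R.psi_nonneg _)
    rw [abs_mul, abs_of_nonneg (R.psi_nonneg _)]
    exact mul_le_of_le_one_right (R.psi_nonneg _) (c1le _ _)
  have unit : ∀ j ∈ J, ∃ k, s j k = 1 ∨ s j k = -1 := fun j hj => by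
    by_contra hne
    push Not at hne
    have : ∀ k, s j k = 0 := fun k => by
      rcases ht3 j k with a | a | a
      exacts [a, absurd a (hne k).1, absurd a (hne k).2]
    have := hn j hj
    simp only [‹∀ k, s j k = 0›, Int.cast_zero] at this
    simp at this
    linarith
  have H0 : ∀ j ∈ J, Hyp w Γ (s j) fun η => c1 w h j (t + lin s η) := fun j hj =>
    ⟨R, hw.1, hLat.1, ht3 j, unit j hj, hd j, bc j, fun ρ hρ β => inv_c1 hD hw hU hd hi t j hρ β⟩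
  have H1 : ∀ j ∈ J, Hyp w Γ (s j) fun η => c1 w h j (t + lin s η) - m j := fun j hj =>
    ⟨R, hw.1, hLat.1, ht3 j, unit j hj, hd j, bm_sub (bc j) (bm_const _), fun ρ hρ β => by
      rw [inv_c1 hD hw hU hd hi t j hρ β]⟩
  have b2 : tm (fun η => W1 w J h (t + lin s η)) =
      ∑ j ∈ J, tm fun η => pq w (t j + ip (s j) η) * c1 w h j (t + lin s η) ^ 2 :=
    tm_sum J fun j _ => bm_mul (bq j) (bm_sq (bc j))
  have b1 : tm (fun η => W1 w J h (t + lin s η)) ≤ 1 :=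
    (tm_mono (bm_comp (wb J).1 (meas_lin s t)) (bm_const 1)
      fun η => ((wb J).2.2.2 _).2.1).trans (tm_const 1).le
  have m2 : ∑ j ∈ J, m j ^ 2 ≤ 64 / (r ^ 16) ^ 2 := by
    have : ∀ j ∈ J, m j ^ 2 ≤ 64 / (r ^ 16) ^ 2 *
        tm fun η => pq w (t j + ip (s j) η) * c1 w h j (t + lin s η) ^ 2 := fun j hj => by
      have a1 := (H0 j hj).psi_lo (t j)
      have a2 := (tm_sq_le ((H0 j hj).bm2 (t j))).trans ((tm_mono (bm_sq ((H0 j hj).bm2 (t j)))
        (bm_mul (bm_const _) ((H0 j hj).bm0 (t j))) ((H0 j hj).sq2 (t j))).trans (tm_cmul _ _).le)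
      rw [hom] at a2
      rw [hm, div_pow, div_le_iff₀ (by positivity)]
      have a3 := (H0 j hj).w_nonneg (t j)
      have a4 : 1 / 4 ≤ tm (fun η => psi w (t j + ip (s j) η)) ^ 2 := by nlinarith
      have a5 := mul_le_mul_of_nonneg_left a4
        (mul_nonneg (by positivity : 0 ≤ 64 / (r ^ 16) ^ 2) a3)
      refine a2.trans (le_trans (le_of_eq ?_) a5)
      ring
    refine (sum_le_sum this).trans ?_
    rw [← mul_sum, ← b2]
    exact mul_le_of_le_one_right (by positivity) b1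
  obtain ⟨Wj, hWj⟩ : ∃ Wj : ι → ℝ, ∀ j, Wj j = σ * Real.sqrt (∑ k, (s j k : ℝ) ^ 2) :=
    ⟨_, fun _ => rfl⟩
  have Wsq : ∀ j, Wj j ^ 2 = σ ^ 2 * ∑ k, (s j k : ℝ) ^ 2 := fun j => by
    rw [hWj, mul_pow, Real.sq_sqrt (sum_nonneg fun _ _ => sq_nonneg _)]
  have Wn0 : ∀ j, 0 ≤ Wj j := fun j => by rw [hWj]; positivity
  have Wlo : ∀ j ∈ J, 1 / r ≤ Wj j := fun j hj => by
    refine (abs_le_of_sq_le_sq' ?_ (Wn0 j)).2
    rw [Wsq]
    have := mul_le_mul_of_nonneg_left (hn j hj) (sq_nonneg σ)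
    rw [show (1 / r) ^ 2 = (2 / r) ^ 2 / 4 by ring, hσ]
    linarith
  have Whi : ∀ j, Wj j ≤ 2 / r := fun j => by
    refine (abs_le_of_sq_le_sq' ?_ (by positivity)).2
    rw [Wsq, hσ]
    refine mul_le_mul_of_nonneg_left ?_ (sq_nonneg σ)
    refine (sum_le_card_nsmul _ _ 1 fun k _ => ?_).trans (by simp)
    rcases ht3 j k with a | a | a <;> simp [a]
  obtain ⟨q, hq⟩ : ∃ q : ι → ℝ, ∀ j, q j = if j ∈ J then r ^ 2 / 3 / A0 (Wj j) r else 0 :=
    ⟨_, fun _ => rfl⟩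
  have r3 : 0 < r ^ 2 / 3 := by positivity
  have q01 : ∀ j, 0 ≤ q j ∧ q j ≤ 1 := fun j => by
    rw [hq]
    split_ifs with hj
    · have := (hp' _ (Wlo j hj) (Whi j)).2.1
      exact ⟨div_nonneg r3.le (r3.le.trans this), div_le_one_of_le₀ this (r3.le.trans this)⟩
    · exact ⟨le_rfl, zero_le_one⟩
  have N := (abs_le.1 (hC w hw hom ι κ Γ J s t h σ ε l l' (fun j u => q j * chi r u) m hLat.1 hJ
    hU hi σ0 hσ ht3 hZ hS e0 hl hl' (fun j => (bm_chi r).1.const_mul _)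
    (fun j u => by
      rw [abs_mul, abs_of_nonneg (q01 j).1,
        abs_of_nonneg (show 0 ≤ chi r u from (Real.exp_pos _).le)]
      exact mul_le_one₀ (q01 j).2 (Real.exp_pos _).le (chi_le r u)) m1 m2)).2
  have O : ∀ j ∈ J, r ^ 2 / 12 *
      tm (fun η => pq w ((t + lin s η) j) * (c1 w h j (t + lin s η) - m j) ^ 2) ≤
      ∫ ξ, (if |ip (s j) ξ| < 1 / 2 then q j * chi r (ip (s j) ξ) else 0) *
        tm (fun η => pq w ((t + lin s η) j) * (c1 w h j (t + lin s η) - m j) *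
          psi w ((t + lin s (η + ξ)) j) *
          (c1 w h j (t + lin s η) - c1 w h j (t + lin s (η + ξ)))) ∂gm κ σ := fun j hj => by
    obtain ⟨a1, a2, a3, a4, a5⟩ := hp' _ (Wlo j hj) (Whi j)
    have A0p : 0 < A0 (Wj j) r := r3.trans_le a2
    have hz : tm (fun η => psi w (t j + ip (s j) η) * (c1 w h j (t + lin s η) - m j)) = 0 := by
      have := (H0 j hj).psi_lo (t j)
      rw [sub_mean (bP j) (bc j), hm, div_mul_cancel₀ _ (by linarith), sub_self]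
    have := (H1 j hj).one hL (t j) hLat rp (lt_of_lt_of_le (by positivity) (Wlo j hj)) (Wsq j) a1
      A0p.le a3 hz (by rw [hom]; exact a4) (by
        rw [hom, show 2 * Real.pi ^ 2 * σ ^ 2 * (c0 * Fintype.card κ / 4) =
          Real.pi ^ 2 * c0 / 2 * (σ ^ 2 * Fintype.card κ) by ring, ← hσ,
          show Real.pi ^ 2 * c0 / 2 * (2 / r) ^ 2 = 2 * Real.pi ^ 2 * c0 / r ^ 2 by ring]
        exact a5)
    have t2 := mul_le_mul_of_nonneg_left this (q01 j).1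
    rw [← integral_const_mul, ← mul_assoc, show q j * (A0 (Wj j) r / 4) = r ^ 2 / 12 by
      rw [hq, if_pos hj]; field_simp; norm_num] at t2
    refine t2.trans (le_of_eq (congrArg _ (funext fun ξ => ?_)))
    simp only [sub_sub_sub_cancel_right, Pi.add_apply, lin]
    split_ifs <;> ring
  have O2 := (sum_le_sum O).trans N
  rw [← mul_sum] at O2
  obtain ⟨d, hd'⟩ : ∃ d : ι → ℝ, ∀ j, d j =
      tm fun η => dpr w (t j + ip (s j) η) * c1 w h j (t + lin s η) := ⟨_, fun _ => rfl⟩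
  have F1 := R.Fi_ge
  have P : ∀ j ∈ J, tm (fun η => pq w (t j + ip (s j) η) * c1 w h j (t + lin s η) ^ 2) ≤
      3 * Fi w * tm (fun η => pq w ((t + lin s η) j) * (c1 w h j (t + lin s η) - m j) ^ 2) +
        d j ^ 2 := fun j hj => by
    rw [hd']
    exact one_pt (H0 j hj) R (t j) (m j) (H1 j hj)
  have P2 := sum_le_sum P
  rw [← b2, sum_add_distrib, ← mul_sum] at P2
  obtain ⟨n2, Ks⟩ := kashin R hD hw hU hLat.1 hd hi t hJ e0 hK H0 hd'
  have n1 : 0 ≤ tm fun η => W2 w J h (t + lin s η) := tm_nonneg fun η => ((wb J).2.2.2 _).2.2.1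
  have n3 : 0 ≤ ε * (Real.sqrt (J.card / w.et) * Real.exp (-l) + J.card * Real.exp (-l')) := by
    positivity
  have sl : 1 ≤ Real.sqrt l + l' * w.et := by
    have := Real.one_le_sqrt.2 hl
    have := mul_nonneg (zero_le_one.trans hl') hw.2.2.1.le
    linarith
  exact Blk.fin_ar rp F1 sl e0 n1 n2 n3 O2 P2 Ks

end Vale.Agent.P318.E
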