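import Vale.Agent.Lib.PCP.ExpCore

/-!
Replacing every vertex of an integer-weighted graph by an expander cloud.
-/

namespace Vale.Agent.N318

open Finset Vale.Agent.Lib.PCP

/-- Functions with values in `{0, 1}`. -/
def Bool01 {V : Type*} (f : V → ℝ) : Prop := ∀ x, f x = 0 ∨ f x = 1

theorem Bool01.sq {V : Type*} {f : V → ℝ} (hf : Bool01 f) (x y : V) :
    (f x - f y) ^ 2 = |f x - f y| := by
  rcases hf x with a | a <;> rcases hf y with b | b <;> simp [a, b]

theorem sum_zmod {m : ℕ} [NeZero m] (F : ℕ → ℝ) :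
    ∑ a : ZMod m, F a.val = ∑ a ∈ range m, F a := by
  obtain ⟨m', rfl⟩ := Nat.exists_eq_succ_of_ne_zero (NeZero.ne m)
  exact Fin.sum_univ_eq_sum_range F (m' + 1)

variable {n m : ℕ} [NeZero m]

/-- The matching between the clouds. -/
def mu (k : Fin n → Fin n → ℕ) (x : Fin n × (ZMod m × ZMod m)) : Fin n × (ZMod m × ZMod m) :=
  if h : x.2.1.val < n then
    if x.2.2.val < k x.1 ⟨_, h⟩ then (⟨_, h⟩, ((x.1.val : ZMod m), x.2.2)) else x
  else x

theorem mu_mu {k : Fin n → Fin n → ℕ} (hk : ∀ i j, k i j = k j i) (hnm : n ≤ m) :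
    Function.Involutive (mu (m := m) k) := by
  rintro ⟨i, j, a⟩
  by_cases h : j.val < n
  · by_cases h2 : a.val < k i ⟨_, h⟩
    · have e1 : mu k (i, j, a) = (⟨_, h⟩, ((i.val : ZMod m), a)) := by simp [mu, h, h2]
      have e2 : ((i.val : ZMod m)).val = i.val := ZMod.val_natCast_of_lt (i.2.trans_le hnm)
      have h3 : ((i.val : ZMod m)).val < n := by rw [e2]; exact i.2
      have e3 : (⟨((i.val : ZMod m)).val, h3⟩ : Fin n) = i := Fin.ext e2
      rw [e1]
      unfold mu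
      rw [dif_pos h3, if_pos (by rw [e3, hk]; exact h2), e3]
      simp
    · have e1 : mu k (i, j, a) = (i, j, a) := by simp [mu, h, h2]
      rw [e1, e1]
  · have e1 : mu k (i, j, a) = (i, j, a) := by simp [mu, h]
    rw [e1, e1]

theorem sum_mu {k : Fin n → Fin n → ℕ} (hkm : ∀ i j, k i j ≤ m) (hnm : n ≤ m)
    (u : Fin n → Fin n → ℝ) (hu : ∀ i, u i i = 0) :
    ∑ x : Fin n × (ZMod m × ZMod m), u x.1 (mu k x).1 = ∑ i, ∑ j, k i j * u i j := by
  rw [Fintype.sum_prod_type]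
  refine sum_congr rfl fun i _ => ?_
  rw [Fintype.sum_prod_type]
  let F : ℕ → ℝ := fun j => if h : j < n then k i ⟨j, h⟩ * u i ⟨j, h⟩ else 0
  have h1 : ∀ j : ZMod m, ∑ a : ZMod m, u i (mu k (i, j, a)).1 = F j.val := by
    intro j
    by_cases h : j.val < n
    · have h2 : ∀ a : ZMod m, u i (mu k (i, j, a)).1 =
          (fun b : ℕ => if b < k i ⟨_, h⟩ then u i ⟨_, h⟩ else 0) a.val := by
        intro a
        by_cases h2 : a.val < k i ⟨_, h⟩ <;> simp [mu, h, h2, hu]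
      rw [sum_congr rfl fun a _ => h2 a,
        sum_zmod fun b : ℕ => if b < k i ⟨_, h⟩ then u i ⟨_, h⟩ else 0, ← sum_filter]
      have h3 : (range m).filter (fun b => b < k i ⟨_, h⟩) = range (k i ⟨_, h⟩) := by
        ext b
        have := hkm i ⟨_, h⟩
        simp only [mem_filter, mem_range]
        omega
      rw [h3]
      simp [F, h]
    · simp [mu, h, hu, F]
  rw [sum_congr rfl fun j _ => h1 j, sum_zmod]
  have h2 : ∑ j ∈ range m, F j = ∑ j ∈ range n, F j := by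
    refine (sum_subset (range_subset_range.2 hnm) fun j _ hj => ?_).symm
    simp only [mem_range] at hj
    simp [F, hj]
  rw [h2, ← Fin.sum_univ_eq_sum_range F n]
  exact sum_congr rfl fun j _ => by simp [F]

/-- Splitting the mean oscillation along a map. -/
theorem osc_le {Y : Type*} [Fintype Y] (f g : Y → ℝ) :
    ∑ x, ∑ y, |f x - f y| ≤
      2 * Fintype.card Y * ∑ x, |f x - g x| + ∑ x, ∑ y, |g x - g y| := by
  have h : ∀ x y, |f x - f y| ≤ |f x - g x| + |f y - g y| + |g x - g y| := by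
    intro x y
    have a := abs_sub_le (f x) (g x) (f y)
    have b := abs_sub_le (g x) (g y) (f y)
    rw [abs_sub_comm (g y)] at b
    linarith
  refine (sum_le_sum fun x _ => sum_le_sum fun y _ => h x y).trans (le_of_eq ?_)
  simp only [sum_add_distrib, sum_const, card_univ, nsmul_eq_mul, ← mul_sum]
  ring

theorem cloud (k : Fin n → Fin n → ℕ) (hk : ∀ i j, k i j = k j i) (hkm : ∀ i j, k i j ≤ m)
    (hnm : n ≤ m) {s : ℝ} (hs : 0 ≤ s) (hsn : s * n ≤ (m : ℝ) ^ 2)
    (hP : ∀ g : Fin n → ℝ, s * ∑ i, ∑ j, |g i - g j| ≤ ∑ i, ∑ j, k i j * |g i - g j|) :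
    ∃ σ : Fin 4 → Equiv.Perm (Fin n × (ZMod m × ZMod m)),
      (∀ f, Bool01 f → s / (m : ℝ) ^ 4 * ∑ x, ∑ y, |f x - f y| ≤
        80000 * ∑ t, ∑ x, |f x - f (σ t x)|) ∧
      ∀ u : Fin n → Fin n → ℝ, (∀ i, u i i = 0) →
        ∑ t, ∑ x, u x.1 (σ t x).1 = ∑ i, ∑ j, k i j * u i j := by
  let M : Equiv.Perm (Fin n × (ZMod m × ZMod m)) := (mu_mu hk hnm).toPerm
  let L : Equiv.Perm (ZMod m × ZMod m) → Equiv.Perm (Fin n × (ZMod m × ZMod m)) :=
    fun e => (Equiv.refl _).prodCongr e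
  refine ⟨![L (MGG.gT m), L (MGG.gS m), L (MGG.rot m), M], fun f hf => ?_, fun u hu => ?_⟩
  swap
  · simp only [Fin.sum_univ_four]
    simpa [L, M, hu] using sum_mu hkm hnm u hu
  have hm : (0 : ℝ) < m := by exact_mod_cast NeZero.pos m
  have hc : (Fintype.card (ZMod m × ZMod m) : ℝ) = (m : ℝ) ^ 2 := by
    rw [Fintype.card_prod, ZMod.card]; push_cast; ring
  set g : Fin n → ℝ := fun i => (∑ q, f (i, q)) / (m : ℝ) ^ 2 with hg
  set E : ℝ := ∑ x : Fin n × (ZMod m × ZMod m), |f x - g x.1| with hE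
  set I : ℝ := ∑ x, |f x - f (L (MGG.gT m) x)| + ∑ x, |f x - f (L (MGG.gS m) x)| +
    ∑ x, |f x - f (L (MGG.rot m) x)| with hI
  set X : ℝ := ∑ x, |f x - f (M x)| with hX
  have hEI : E ≤ 20000 * I := by
    have h1 : ∀ i p, |f (i, p) - g i| ≤ (∑ q, |f (i, p) - f (i, q)|) / (m : ℝ) ^ 2 := by
      intro i p
      have : f (i, p) - g i = (∑ q, (f (i, p) - f (i, q))) / (m : ℝ) ^ 2 := by
        rw [sum_sub_distrib, sum_const, card_univ, nsmul_eq_mul, hc, hg]
        field_simp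
      rw [this, abs_div, abs_of_pos (by positivity : (0 : ℝ) < (m : ℝ) ^ 2)]
      exact div_le_div_of_nonneg_right (abs_sum_le_sum_abs _ _) (by positivity)
    have h2 : ∀ i, ∑ p, |f (i, p) - g i| ≤ 20000 * (∑ q, |f (i, q) - f (i, MGG.gT m q)| +
        ∑ q, |f (i, q) - f (i, MGG.gS m q)| + ∑ q, |f (i, q) - f (i, MGG.rot m q)|) := by
      intro i
      have h := MGG.poincare (N := m) fun q => f (i, q)
      simp only [hf.sq] at h
      refine (sum_le_sum fun p _ => h1 i p).trans ?_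
      rw [← sum_div, div_le_iff₀ (by positivity)]
      linarith
    rw [hE, hI, Fintype.sum_prod_type]
    refine (sum_le_sum fun i _ => h2 i).trans (le_of_eq ?_)
    simp only [Fintype.sum_prod_type (α₁ := Fin n), ← mul_sum, sum_add_distrib]
    rfl
  have h1 := osc_le f fun x => g x.1
  have h2 : ∑ x : Fin n × (ZMod m × ZMod m), ∑ y : Fin n × (ZMod m × ZMod m), |g x.1 - g y.1| =
      (m : ℝ) ^ 4 * ∑ i, ∑ j, |g i - g j| := by
    simp only [Fintype.sum_prod_type (α₁ := Fin n), sum_const, card_univ, nsmul_eq_mul, hc,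
      ← mul_sum]
    ring
  have h3 : ∑ i, ∑ j, k i j * |g i - g j| ≤ X + 2 * E := by
    rw [← sum_mu hkm hnm (fun i j => |g i - g j|) (by simp)]
    have e : ∑ x, |f (M x) - g (M x).1| = E := Equiv.sum_comp M fun x => |f x - g x.1|
    rw [two_mul, ← add_assoc]
    nth_rewrite 2 [← e]
    rw [hX, hE, ← sum_add_distrib, ← sum_add_distrib]
    refine sum_le_sum fun x _ => ?_
    have a := abs_sub_le (g x.1) (f x) (g (M x).1)
    have b := abs_sub_le (f x) (f (M x)) (g (M x).1)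
    rw [abs_sub_comm (g x.1) (f x)] at a
    change |g x.1 - g (M x).1| ≤ _
    linarith
  have h4 := hP g
  have hE0 : 0 ≤ E := sum_nonneg fun _ _ => abs_nonneg _
  have hX0 : 0 ≤ X := sum_nonneg fun _ _ => abs_nonneg _
  have hcard : (Fintype.card (Fin n × (ZMod m × ZMod m)) : ℝ) = n * (m : ℝ) ^ 2 := by
    rw [Fintype.card_prod, Nat.cast_mul, hc, Fintype.card_fin]
  rw [h2, hcard, ← hE] at h1
  have h5 : s / (m : ℝ) ^ 4 * (2 * (n * (m : ℝ) ^ 2) * E) ≤ 2 * E := by
    have : s / (m : ℝ) ^ 4 * (2 * (n * (m : ℝ) ^ 2) * E) = s * n / (m : ℝ) ^ 2 * (2 * E) := by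
      field_simp
    rw [this]
    exact mul_le_of_le_one_left (by positivity) ((div_le_one (by positivity)).2 hsn)
  have h6 : s / (m : ℝ) ^ 4 * ((m : ℝ) ^ 4 * ∑ i, ∑ j, |g i - g j|) =
      s * ∑ i, ∑ j, |g i - g j| := by field_simp
  have h7 := mul_le_mul_of_nonneg_left h1 (show 0 ≤ s / (m : ℝ) ^ 4 by positivity)
  rw [mul_add, h6] at h7
  simp only [Fin.sum_univ_four]
  change _ ≤ 80000 * (I + X)
  linarith

end Vale.Agent.N318
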