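import Vale.Agent.N318.Defs
import Vale.Agent.N318.Cloud

/-!
From four permutations to a graph of maximum degree three on any number of vertices in a window.
-/

namespace Vale.Agent.N318

open Finset

theorem graph_of {W : Type*} [Fintype W] [DecidableEq W] {N : ℕ} (φ : Fin N ≃ W)
    (C : Equiv.Perm W) (J : W → W) (hJ : Function.Involutive J) :
    ∃ G : SimpleGraph (Fin N), Subcubic G ∧ ∀ w : W → W → ℝ, (∀ x y, 0 ≤ w x y) →
      (∀ x y, w x y = w y x) → (∀ x, w x x = 0) →
      ∑ x, w x (C x) ≤ ∑ i, ∑ j, edgeCap G i j * w (φ i) (φ j) ∧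
      ∑ x, w x (J x) ≤ ∑ i, ∑ j, edgeCap G i j * w (φ i) (φ j) ∧
      ∑ i, ∑ j, edgeCap G i j * w (φ i) (φ j) ≤ 2 * ∑ x, w x (C x) + ∑ x, w x (J x) := by
  let G : SimpleGraph (Fin N) := SimpleGraph.fromRel fun i j => φ j = C (φ i) ∨ φ j = J (φ i)
  have hadj : ∀ i j, G.Adj i j → j = φ.symm (C (φ i)) ∨ j = φ.symm (C.symm (φ i)) ∨
      j = φ.symm (J (φ i)) := by
    intro i j h
    obtain ⟨-, (h | h) | h | h⟩ := (SimpleGraph.fromRel_adj _ _ _).1 h
    · left; rw [← h]; simp
    · right; right; rw [← h]; simp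
    · right; left; rw [h]; simp
    · right; right; rw [h, hJ]; simp
  have he0 : ∀ i j, 0 ≤ edgeCap G i j := fun i j => by unfold edgeCap; split_ifs <;> norm_num
  refine ⟨G, fun i => ?_, fun w h0 hs hd => ?_⟩
  · have : G.neighborSet i ⊆ {φ.symm (C (φ i)), φ.symm (C.symm (φ i)), φ.symm (J (φ i))} :=
      fun j hj => hadj i j hj
    refine (Set.ncard_le_ncard this (Set.toFinite _)).trans ?_
    refine (Set.ncard_insert_le _ _).trans ?_
    have := Set.ncard_insert_le (φ.symm (C.symm (φ i))) {φ.symm (J (φ i))}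
    rw [Set.ncard_singleton] at this
    omega
  have low : ∀ T : W → W, (∀ x, T x = C x ∨ T x = J x) →
      ∑ x, w x (T x) ≤ ∑ i, ∑ j, edgeCap G i j * w (φ i) (φ j) := by
    intro T hT
    rw [← Equiv.sum_comp φ]
    refine sum_le_sum fun i _ => ?_
    have hn : ∀ j ∈ (univ : Finset (Fin N)), 0 ≤ edgeCap G i j * w (φ i) (φ j) :=
      fun j _ => mul_nonneg (he0 i j) (h0 _ _)
    by_cases h : T (φ i) = φ i
    · rw [h, hd]; exact sum_nonneg hn
    · refine le_trans (le_of_eq ?_) (single_le_sum hn (mem_univ (φ.symm (T (φ i)))))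
      have : G.Adj i (φ.symm (T (φ i))) := by
        refine (SimpleGraph.fromRel_adj _ _ _).2 ⟨fun e => h ?_, Or.inl ?_⟩
        · have := congrArg φ e
          simpa using this.symm
        · simpa using hT (φ i)
      simp [edgeCap, this]
  refine ⟨low C fun _ => Or.inl rfl, low J fun _ => Or.inr rfl, ?_⟩
  have h1 : ∀ i, ∑ j, edgeCap G i j * w (φ i) (φ j) ≤
      w (φ i) (C (φ i)) + w (φ i) (C.symm (φ i)) + w (φ i) (J (φ i)) := by
    intro i
    have h2 : ∀ y : W, w (φ i) y = ∑ j, if j = φ.symm y then w (φ i) (φ j) else 0 := by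
      intro y; simp
    rw [h2 (C _), h2 (C.symm _), h2 (J _), ← sum_add_distrib, ← sum_add_distrib]
    refine sum_le_sum fun j _ => ?_
    have h3 := h0 (φ i) (φ j)
    unfold edgeCap
    by_cases h : G.Adj i j
    · rw [if_pos h, one_mul]
      rcases hadj i j h with a | a | a <;> rw [if_pos a] <;> split_ifs <;> linarith
    · rw [if_neg h, zero_mul]
      split_ifs <;> linarith
  refine (sum_le_sum fun i _ => h1 i).trans (le_of_eq ?_)
  rw [Equiv.sum_comp φ fun x => w x (C x) + w x (C.symm x) + w x (J x), sum_add_distrib,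
    sum_add_distrib, ← Equiv.sum_comp C fun x => w x (C.symm x)]
  simp only [Equiv.symm_apply_apply, hs (C _)]
  ring

theorem cyc_le (h : ZMod 9 → ℝ) (a : ZMod 9) : |h 0 - h a| ≤ ∑ b, |h b - h (b + 1)| := by
  have h1 := dist_le_range_sum_dist (fun i : ℕ => h i) a.val
  have h2 := sum_zmod (m := 9) fun i : ℕ => |h i - h (i + 1)|
  simp only [ZMod.natCast_zmod_val] at h2
  simp only [Real.dist_eq, Nat.cast_zero, ZMod.natCast_zmod_val, Nat.cast_add, Nat.cast_one] at h1
  rw [h2]
  exact h1.trans (sum_le_sum_of_subset_of_nonneg (range_subset_range.2 (ZMod.val_lt a).le)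
    fun _ _ _ => abs_nonneg _)

variable {V : Type*} {r : ℕ}

/-- The vertex set: nine slots for each old vertex, and pendant vertices. -/
abbrev Big (V : Type*) (r : ℕ) := (V × Option (Fin 4 × Bool)) ⊕ Fin r

open Classical in
/-- The matching. -/
noncomputable def mat (σ : Fin 4 → Equiv.Perm V) (e : Fin r ↪ V) : Big V r → Big V r
  | .inl (v, some (t, false)) => .inl (σ t v, some (t, true))
  | .inl (v, some (t, true)) => .inl ((σ t).symm v, some (t, false))
  | .inl (v, none) => if h : ∃ z, e z = v then .inr h.choose else .inl (v, none)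
  | .inr z => .inl (e z, none)

/-- The projection. -/
def proj (e : Fin r ↪ V) : Big V r → V
  | .inl x => x.1
  | .inr z => e z

theorem mat_mat (σ : Fin 4 → Equiv.Perm V) (e : Fin r ↪ V) : Function.Involutive (mat σ e) := by
  rintro (⟨v, _ | ⟨t, _ | _⟩⟩ | z)
  · by_cases h : ∃ z, e z = v
    · have e1 : mat σ e (.inl (v, none)) = .inr h.choose := by simp only [mat, dif_pos h]
      rw [e1]
      simp only [mat, h.choose_spec]
    · have e1 : mat σ e (.inl (v, none)) = .inl (v, none) := by simp only [mat, dif_neg h]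
      rw [e1, e1]
  · simp [mat]
  · simp [mat]
  · have h : ∃ z', e z' = e z := ⟨z, rfl⟩
    simp only [mat, dif_pos h]
    rw [e.injective h.choose_spec]

theorem proj_mat_none (σ : Fin 4 → Equiv.Perm V) (e : Fin r ↪ V) (v : V) :
    proj e (mat σ e (.inl (v, none))) = v := by
  by_cases h : ∃ z, e z = v
  · simp only [mat, dif_pos h, proj, h.choose_spec]
  · simp only [mat, dif_neg h, proj]

variable [Fintype V]

theorem sum_big (F : Big V r → ℝ) : ∑ x, F x = ∑ v, F (.inl (v, none)) +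
    ∑ t, ∑ v, F (.inl (v, some (t, false))) + ∑ t, ∑ v, F (.inl (v, some (t, true))) +
    ∑ z, F (.inr z) := by
  rw [Fintype.sum_sum_type, Fintype.sum_prod_type_right, Fintype.sum_option,
    Fintype.sum_prod_type_right, Fintype.sum_bool]
  ring

theorem sum_proj_le (e : Fin r ↪ V) (h : V → ℝ) (h0 : ∀ v, 0 ≤ h v) :
    ∑ v, h v ≤ ∑ x : Big V r, h (proj e x) ∧ ∑ x : Big V r, h (proj e x) ≤ 10 * ∑ v, h v := by
  classical
  rw [sum_big]
  simp only [proj, sum_const, card_univ, Fintype.card_fin, nsmul_eq_mul]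
  have a : 0 ≤ ∑ v, h v := sum_nonneg fun v _ => h0 v
  have b : 0 ≤ ∑ z, h (e z) := sum_nonneg fun v _ => h0 _
  have c : ∑ z, h (e z) ≤ ∑ v, h v := by
    rw [← sum_map univ e h]
    exact sum_le_sum_of_subset_of_nonneg (subset_univ _) fun v _ _ => h0 v
  push_cast
  constructor <;> linarith

theorem cubic [DecidableEq V] (σ : Fin 4 → Equiv.Perm V) {lam K : ℝ} (hlam : 0 ≤ lam)
    (hlV : lam * Fintype.card V ≤ 1) (hK : 1 ≤ K)
    (hP : ∀ f : V → ℝ, Bool01 f →
      lam * ∑ x, ∑ y, |f x - f y| ≤ K * ∑ t, ∑ x, |f x - f (σ t x)|)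
    {N : ℕ} (h1 : 9 * Fintype.card V ≤ N) (h2 : N ≤ 10 * Fintype.card V) :
    ∃ (G : SimpleGraph (Fin N)) (ρ : Fin N → V), Subcubic G ∧
      (∀ f : Fin N → ℝ, Bool01 f → lam * ∑ i, ∑ j, |f i - f j| ≤
        2100 * K * ∑ i, ∑ j, edgeCap G i j * |f i - f j|) ∧
      ∀ w : V → V → ℝ, (∀ x y, 0 ≤ w x y) → (∀ x y, w x y = w y x) → (∀ x, w x x = 0) →
        ∑ i, ∑ j, edgeCap G i j * w (ρ i) (ρ j) ≤ 2 * ∑ t, ∑ x, w x (σ t x) ∧
        ∑ x, ∑ y, w x y ≤ ∑ i, ∑ j, w (ρ i) (ρ j) := by
  obtain ⟨r, rfl⟩ := Nat.exists_eq_add_of_le h1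
  obtain ⟨e⟩ : Nonempty (Fin r ↪ V) :=
    Function.Embedding.nonempty_of_card_le (by rw [Fintype.card_fin]; omega)
  have hcard : Fintype.card (Big V r) = 9 * Fintype.card V + r := by
    simp [Big, mul_comm]
  let φ : Fin (9 * Fintype.card V + r) ≃ Big V r := (Fintype.equivFinOfCardEq hcard).symm
  let q : Option (Fin 4 × Bool) ≃ ZMod 9 := Fintype.equivOfCardEq (by simp)
  let C : Equiv.Perm (Big V r) :=
    ((Equiv.refl V).prodCongr ((q.trans (Equiv.addRight 1)).trans q.symm)).sumCongr (Equiv.refl _)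
  have hC : ∀ x, proj e (C x) = proj e x := by rintro (x | x) <;> rfl
  obtain ⟨G, hG, hw⟩ := graph_of φ C (mat σ e) (mat_mat σ e)
  refine ⟨G, fun i => proj e (φ i), hG, fun f' hf' => ?_, fun w h0 hs hd => ⟨?_, ?_⟩⟩
  rotate_left
  · refine (hw (fun x y => w (proj e x) (proj e y)) (fun _ _ => h0 _ _) (fun _ _ => hs _ _)
      fun _ => hd _).2.2.trans (le_of_eq ?_)
    simp only [hC, hd, sum_const_zero]
    rw [sum_big]
    simp only [proj_mat_none]
    simp only [mat, proj, hd, sum_const_zero]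
    have : ∀ t, ∑ v, w v ((σ t).symm v) = ∑ v, w v (σ t v) := fun t => by
      rw [← Equiv.sum_comp (σ t)]
      simp only [Equiv.symm_apply_apply, hs (σ t _)]
    simp only [this]
    ring
  · rw [Equiv.sum_comp φ fun x => ∑ j, w (proj e x) (proj e (φ j))]
    refine le_trans ?_ (sum_proj_le e (fun v => ∑ j, w v (proj e (φ j)))
      fun v => sum_nonneg fun _ _ => h0 _ _).1
    refine sum_le_sum fun v _ => ?_
    rw [Equiv.sum_comp φ fun y => w v (proj e y)]
    exact (sum_proj_le e (w v) (h0 v)).1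
  set f : Big V r → ℝ := fun x => f' (φ.symm x) with hf
  obtain ⟨a1, a2, -⟩ := hw (fun x y => |f x - f y|) (fun _ _ => abs_nonneg _)
    (fun _ _ => abs_sub_comm _ _) (by simp)
  have e0 : ∑ i, ∑ j, |f' i - f' j| = ∑ x, ∑ y, |f x - f y| := by
    rw [← Equiv.sum_comp φ.symm]
    exact sum_congr rfl fun x _ => (Equiv.sum_comp φ.symm fun j => |f x - f' j|).symm
  simp only [hf, Equiv.symm_apply_apply] at a1 a2
  rw [e0]
  set S := ∑ i, ∑ j, edgeCap G i j * |f' i - f' j|
  change ∑ x, |f x - f (C x)| ≤ S at a1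
  change ∑ x, |f x - f (mat σ e x)| ≤ S at a2
  set f0 : V → ℝ := fun v => f (.inl (v, none)) with hf0
  set cy : V → ℝ := fun v => ∑ l, |f (.inl (v, l)) - f (C (.inl (v, l)))| with hcy
  have b1 : ∑ v, cy v ≤ S := by
    refine le_trans ?_ a1
    rw [Fintype.sum_sum_type, Fintype.sum_prod_type]
    exact le_add_of_nonneg_right (sum_nonneg fun _ _ => abs_nonneg _)
  have b2 : ∀ v l, |f (.inl (v, l)) - f0 v| ≤ 2 * cy v := by
    intro v l
    have c : ∀ l, |f (.inl (v, q.symm 0)) - f (.inl (v, l))| ≤ cy v := fun l => by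
      have := cyc_le (fun a => f (.inl (v, q.symm a))) (q l)
      rw [Equiv.symm_apply_apply, ← Equiv.sum_comp q] at this
      simpa [hcy, C] using this
    have c1 := c l
    have c2 := c none
    have c3 := abs_sub_le (f (.inl (v, l))) (f (.inl (v, q.symm 0))) (f0 v)
    rw [abs_sub_comm] at c1
    linarith
  have n1 : ∀ F : Big V r → ℝ, 0 ≤ ∑ t, ∑ v, |f (.inl (v, some (t, true))) - F (.inl (v, some
      (t, true)))| := fun F => sum_nonneg fun _ _ => sum_nonneg fun _ _ => abs_nonneg _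
  have n2 : 0 ≤ ∑ t, ∑ v, |f (.inl (v, some (t, false))) - f (mat σ e (.inl (v, some
      (t, false))))| := sum_nonneg fun _ _ => sum_nonneg fun _ _ => abs_nonneg _
  have n3 : 0 ≤ ∑ v, |f (.inl (v, none)) - f (mat σ e (.inl (v, none)))| :=
    sum_nonneg fun _ _ => abs_nonneg _
  have n4 : 0 ≤ ∑ z, |f (.inr z) - f (mat σ e (.inr z))| := sum_nonneg fun _ _ => abs_nonneg _
  have n5 := n1 fun x => f (mat σ e x)
  rw [sum_big] at a2
  have b3 : ∑ x, |f x - f0 (proj e x)| ≤ 19 * S := by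
    rw [Fintype.sum_sum_type, Fintype.sum_prod_type]
    have c1 : ∑ v, ∑ l, |f (.inl (v, l)) - f0 (proj e (.inl (v, l)))| ≤ 18 * ∑ v, cy v := by
      rw [mul_sum]
      refine sum_le_sum fun v _ => (sum_le_sum fun l _ => b2 v l).trans (le_of_eq ?_)
      simp
      ring
    have c2 : ∑ z, |f (.inr z) - f0 (proj e (.inr z))| =
      ∑ z, |f (.inr z) - f (mat σ e (.inr z))| := rfl
    linarith
  have b4 : ∑ x : Big V r, ∑ y : Big V r, |f0 (proj e x) - f0 (proj e y)| ≤
      100 * ∑ v, ∑ u, |f0 v - f0 u| := by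
    refine (sum_proj_le e (fun v => ∑ y : Big V r, |f0 v - f0 (proj e y)|)
      fun v => sum_nonneg fun _ _ => abs_nonneg _).2.trans ?_
    have := sum_le_sum fun v (_ : v ∈ univ) =>
      (sum_proj_le e (fun u => |f0 v - f0 u|) fun _ => abs_nonneg _).2
    rw [← mul_sum] at this
    linarith
  have b5 : ∑ t, ∑ v, |f0 v - f0 (σ t v)| ≤ 17 * S := by
    have c1 : ∀ t v, |f0 v - f0 (σ t v)| ≤ 2 * cy v + 2 * cy (σ t v) +
        |f (.inl (v, some (t, false))) - f (mat σ e (.inl (v, some (t, false))))| := by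
      intro t v
      have d1 := b2 v (some (t, false))
      have d2 := b2 (σ t v) (some (t, true))
      have d3 := abs_sub_le (f0 v) (f (.inl (v, some (t, false)))) (f0 (σ t v))
      have d4 := abs_sub_le (f (.inl (v, some (t, false)))) (f (.inl (σ t v, some (t, true))))
        (f0 (σ t v))
      rw [abs_sub_comm] at d1
      simp only [mat]
      linarith
    refine (sum_le_sum fun t _ => sum_le_sum fun v _ => c1 t v).trans ?_
    simp only [sum_add_distrib, ← mul_sum, Equiv.sum_comp (σ _) cy, sum_const, card_univ,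
      Fintype.card_fin, nsmul_eq_mul]
    push_cast
    linarith
  have b6 := hP f0 fun v => hf' _
  have b7 := osc_le f fun x => f0 (proj e x)
  have hS : 0 ≤ S := le_trans (sum_nonneg fun _ _ => abs_nonneg _) a1
  have b8 : lam * Fintype.card (Big V r) ≤ 10 := by
    have : (Fintype.card (Big V r) : ℝ) ≤ 10 * Fintype.card V := by
      rw [hcard]; exact_mod_cast h2
    nlinarith
  have b9 : 0 ≤ ∑ x, |f x - f0 (proj e x)| := sum_nonneg fun _ _ => abs_nonneg _
  have c1 := mul_le_mul_of_nonneg_left b7 hlam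
  have c2 := mul_le_mul_of_nonneg_left b4 hlam
  have c3 := mul_le_mul_of_nonneg_right b8 b9
  have c4 := mul_le_mul_of_nonneg_left b5 (zero_le_one.trans hK)
  have c5 := mul_le_mul_of_nonneg_right hK hS
  nlinarith

end Vale.Agent.N318
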