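import Vale.Agent.P318.Defs
import Mathlib.Combinatorics.SimpleGraph.Basic
import Mathlib.Data.Set.Card
import Mathlib.Analysis.SpecialFunctions.Pow.Real

/-!
Definitions for unweighted graphs and for the balanced separator relaxation.
-/

namespace Vale.Agent.N318

open Finset Vale.Agent.P318

open Classical in
/-- The capacities of an unweighted graph: `1` on edges, `0` elsewhere. -/
noncomputable def edgeCap {n : ℕ} (G : SimpleGraph (Fin n)) (i j : Fin n) : ℝ :=
  if G.Adj i j then 1 else 0

/-- Every vertex has at most three neighbours. -/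
def Subcubic {n : ℕ} (G : SimpleGraph (Fin n)) : Prop :=
  ∀ v, (G.neighborSet v).ncard ≤ 3

/-- A feasible solution of the Arora-Rao-Vazirani relaxation of `b`-balanced separator: unit
vectors whose squared distances satisfy all triangle inequalities and sum to at least
`4 b (1 - b) n²` over the pairs. -/
def IsSepSol {n : ℕ} (b : ℝ) (v : Fin n → EuclideanSpace ℝ (Fin n)) : Prop :=
  (∀ i, ‖v i‖ = 1) ∧
    (∀ i j k, ‖v i - v k‖ ^ 2 ≤ ‖v i - v j‖ ^ 2 + ‖v j - v k‖ ^ 2) ∧
    4 * b * (1 - b) * (n : ℝ) ^ 2 ≤ pairSum fun i j => ‖v i - v j‖ ^ 2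

/-- The objective value `(1/4) Σ_{i<j} c_ij ‖v_i - v_j‖²` of that relaxation. -/
noncomputable def sepValue {n : ℕ} (c : Fin n → Fin n → ℝ)
    (v : Fin n → EuclideanSpace ℝ (Fin n)) : ℝ :=
  (pairSum fun i j => c i j * ‖v i - v j‖ ^ 2) / 4

/-- The function `sqrt (log n) / ((log log n) ^ (3 / 2) (log log log n) ^ 135)`. -/
noncomputable def low (n : ℕ) : ℝ :=
  Real.sqrt (Real.log n) /
    (Real.log (Real.log n) ^ (3 / 2 : ℝ) * Real.log (Real.log (Real.log n)) ^ 135)

end Vale.Agent.N318
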