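import Vale.Agent.N318.Reduce

/-!
Balanced separators and embeddings into `ℓ₁`.
-/

namespace Vale.Agent.N318

open Finset Vale.Agent.P318

variable {n : ℕ}

theorem one_sub_exp_tri {a b c : ℝ} (ha : 0 ≤ a) (hb : 0 ≤ b) (h : c ≤ a + b) :
    1 - Real.exp (-c) ≤ (1 - Real.exp (-a)) + (1 - Real.exp (-b)) := by
  have h1 : Real.exp (-a) * Real.exp (-b) ≤ Real.exp (-c) := by
    rw [← Real.exp_add]; exact Real.exp_le_exp.2 (by linarith)
  have h2 : Real.exp (-a) ≤ 1 := Real.exp_le_one_iff.2 (by linarith)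
  have h3 : Real.exp (-b) ≤ 1 := Real.exp_le_one_iff.2 (by linarith)
  nlinarith

/-- A large gap survives in the relaxation of balanced separator. -/
theorem sep (hn : 2 ≤ n) {c : Fin n → Fin n → ℝ} (hc : IsCap c) (h0 : 0 < glValue c) {b : ℝ}
    (hb0 : 0 ≤ b) (hb : b < 1 / 2) (hR : 16 * glValue c ≤ (1 - 2 * b) ^ 2 * Phi c) :
    ∃ v : Fin n → EuclideanSpace ℝ (Fin n), IsSepSol b v ∧
      (1 - 2 * b) ^ 2 * sepValue c v ≤ 4 * (n : ℝ) ^ 2 * glValue c := by
  obtain ⟨d, hd, h1, h2⟩ := exists_near h0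
  have hk := hd.negKer
  rw [pairSum_eq_half (fun i j => by rw [hc.1 i j, hk.symm i j]) (fun i => by simp [hk.self])]
    at h2
  rw [pairSum_eq_half hk.symm hk.self] at h1
  have n2 : (2 : ℝ) ≤ n := by exact_mod_cast hn
  set δ : ℝ := (1 - 2 * b) ^ 2 / 2 with hδ
  have δ0 : 0 < δ := by have : 0 < 1 - 2 * b := by linarith
                        positivity
  have δ1 : δ ≤ 1 / 2 := by rw [hδ]; nlinarith
  have hΦ : 0 < Phi c := by nlinarith
  set r : ℝ := 1 / (2 * (n : ℝ) ^ 2) with hr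
  -- all balls are small
  have ball : ∀ o, ((univ.filter fun a => d o a ≤ r).card : ℝ) ≤ δ * n := by
    intro o
    have a1 : 1 ≤ n * ∑ i, d o i := by
      have : ∑ i, ∑ j, d i j ≤ ∑ i : Fin n, ∑ j : Fin n, (d o i + d o j) :=
        sum_le_sum fun i _ => sum_le_sum fun j _ => by rw [hk.symm o i]; exact hd.2 i o j
      simp only [sum_add_distrib, sum_const, card_univ, Fintype.card_fin, nsmul_eq_mul,
        ← mul_sum] at this
      linarith
    have a2 := ARV.round hc hd (A := univ.filter fun a => d o a ≤ r)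
      ⟨o, mem_filter.2 ⟨mem_univ _, by rw [hk.self]; positivity⟩⟩ (g := fun i => d o i - r)
      fun i a ha => by have := hd.2 o a i; have := (mem_filter.1 ha).2; linarith
    simp only [sum_sub_distrib, sum_const, card_univ, Fintype.card_fin, nsmul_eq_mul] at a2
    have a3 : 1 / (2 * n) ≤ ∑ i, d o i - n * r := by
      have e1 : (n : ℝ) * r = 1 / (2 * n) := by rw [hr]; field_simp
      have e2 : 1 / (n : ℝ) ≤ ∑ i, d o i := by rw [div_le_iff₀ (by linarith)]; linarith
      have e3 : 1 / (n : ℝ) = 1 / (2 * n) + 1 / (2 * n) := by field_simp; ring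
      linarith
    set B : ℝ := ((univ.filter fun a => d o a ≤ r).card : ℝ)
    have B0 : 0 ≤ B := Nat.cast_nonneg _
    have a4 : Phi c * (B * (1 / (2 * n))) ≤ δ * Phi c / 2 := by
      have := mul_le_mul_of_nonneg_left (mul_le_mul_of_nonneg_left a3 B0) hΦ.le
      have e : (1 - 2 * b) ^ 2 * Phi c = 2 * (δ * Phi c) := by rw [hδ]; ring
      linarith
    have a5 : B * (1 / (2 * n)) ≤ δ / 2 := by
      refine le_of_mul_le_mul_left ?_ hΦ
      linarith
    rw [mul_one_div, div_le_iff₀ (by linarith)] at a5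
    linarith
  set t : ℝ := 2 * (n : ℝ) ^ 2 / δ with ht
  have t0 : 0 ≤ t := by positivity
  obtain ⟨v, hv⟩ := (hk.posKer_exp t0).exists_vec
  have hv1 : ∀ i, ‖v i‖ ^ 2 = 1 := fun i => by
    rw [← real_inner_self_eq_norm_sq, ← hv, hk.self]; simp
  have hv2 : ∀ i j, ‖v i - v j‖ ^ 2 = 2 * (1 - Real.exp (-(t * d i j))) := fun i j => by
    rw [norm_sub_sq_real, hv1, hv1, ← hv]; ring
  have hs : ∀ i j, ‖v i - v j‖ ^ 2 = ‖v j - v i‖ ^ 2 := fun i j => by rw [norm_sub_rev]
  refine ⟨v, ⟨fun i => ?_, fun i j k => ?_, ?_⟩, ?_⟩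
  · exact (pow_eq_one_iff_of_nonneg (norm_nonneg _) two_ne_zero).1 (hv1 i)
  · rw [hv2, hv2, hv2, ← mul_add]
    refine mul_le_mul_of_nonneg_left (one_sub_exp_tri (mul_nonneg t0 (hk.nonneg _ _))
      (mul_nonneg t0 (hk.nonneg _ _)) ?_) zero_le_two
    rw [← mul_add]
    exact mul_le_mul_of_nonneg_left (hd.2 i j k) t0
  · rw [pairSum_eq_half hs (by simp)]
    have a1 : ∀ i, 2 * (1 - δ) * ((1 - δ) * n) ≤ ∑ j, ‖v i - v j‖ ^ 2 := by
      intro i
      have b1 : ∀ j ∈ univ.filter fun a => ¬ d i a ≤ r, 2 * (1 - δ) ≤ ‖v i - v j‖ ^ 2 := by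
        intro j hj
        have c1 := (not_le.1 (mem_filter.1 hj).2).le
        have c2 : 1 / δ ≤ t * d i j := by
          refine le_trans (le_of_eq ?_) (mul_le_mul_of_nonneg_left c1 t0)
          rw [ht, hr]; field_simp
        have c3 : Real.exp (-(t * d i j)) ≤ δ := by
          rw [Real.exp_neg, inv_le_comm₀ (Real.exp_pos _) δ0, inv_eq_one_div]
          linarith [Real.add_one_le_exp (t * d i j)]
        rw [hv2]; linarith
      have b2 := card_nsmul_le_sum _ _ _ b1
      have b3 := card_filter_add_card_filter_not (s := (univ : Finset (Fin n)))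
        fun a => d i a ≤ r
      rw [card_univ, Fintype.card_fin] at b3
      have b4 : ((univ.filter fun a => d i a ≤ r).card : ℝ) +
        (univ.filter fun a => ¬ d i a ≤ r).card = n := by exact_mod_cast b3
      have b5 := ball i
      rw [nsmul_eq_mul] at b2
      refine le_trans ?_ (b2.trans (sum_le_sum_of_subset_of_nonneg (subset_univ _)
        fun _ _ _ => by positivity))
      rw [mul_comm]
      exact mul_le_mul_of_nonneg_right (by linarith) (by linarith)
    have a2 := sum_le_sum fun i (_ : i ∈ univ) => a1 i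
    simp only [sum_const, card_univ, Fintype.card_fin, nsmul_eq_mul] at a2
    have a3 : 4 * b * (1 - b) ≤ (1 - δ) ^ 2 := by
      have : 4 * b * (1 - b) = 1 - 2 * δ := by rw [hδ]; ring
      nlinarith
    have a4 := mul_le_mul_of_nonneg_right a3 (show (0 : ℝ) ≤ (n : ℝ) ^ 2 by positivity)
    linarith
  · unfold sepValue
    rw [pairSum_eq_half (fun i j => by rw [hc.1 i j, hs]) (by simp)]
    have a1 : ∑ i, ∑ j, c i j * ‖v i - v j‖ ^ 2 ≤ 2 * t * ∑ i, ∑ j, c i j * d i j := by
      simp only [mul_sum]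
      refine sum_le_sum fun i _ => sum_le_sum fun j _ => ?_
      have := Real.add_one_le_exp (-(t * d i j))
      have e : ‖v i - v j‖ ^ 2 ≤ 2 * (t * d i j) := by rw [hv2]; linarith
      exact (mul_le_mul_of_nonneg_left e (hc.2.1 i j)).trans (le_of_eq (by ring))
    have a2 : (1 - 2 * b) ^ 2 = 2 * δ := by rw [hδ]; ring
    have a3 : δ * t = 2 * (n : ℝ) ^ 2 := by rw [ht]; field_simp
    have a4 := mul_le_mul_of_nonneg_left a1 δ0.le
    have a5 := mul_le_mul_of_nonneg_left h2.le (show (0 : ℝ) ≤ (n : ℝ) ^ 2 by positivity)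
    rw [a2]
    have a6 : δ * (2 * t * ∑ i, ∑ j, c i j * d i j) =
        4 * (n : ℝ) ^ 2 * ∑ i, ∑ j, c i j * d i j := by
      rw [← mul_assoc, ← mul_assoc, mul_comm δ, mul_assoc 2, a3]
      ring
    linarith

/-- Average distortion of embeddings into `ℓ₁`. -/
theorem distortion (hn : 2 ≤ n) : ∃ d : Fin n → Fin n → ℝ, IsNegType d ∧ pairSum d = 1 ∧
    ∀ (k : ℕ) (f : Fin n → Fin k → ℝ), (∀ i j, ∑ a, |f i a - f j a| ≤ d i j) →
      gap n * (pairSum fun i j => ∑ a, |f i a - f j a|) ≤ 4 := by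
  obtain ⟨c, d, hc, hd, h1, hΦ, h2⟩ := exists_inst hn
  refine ⟨d, hd, h1, fun k f hf => ?_⟩
  have hk := hd.negKer
  rw [pairSum_eq_half (fun i j => by rw [hc.1 i j, hk.symm i j]) (fun i => by simp [hk.self])]
    at h2
  rw [pairSum_eq_half (fun i j => sum_congr rfl fun a _ => abs_sub_comm _ _) (by simp)]
  have a1 : Phi c * ∑ i, ∑ j, ∑ a, |f i a - f j a| ≤ ∑ i, ∑ j, c i j * ∑ a, |f i a - f j a| := by
    have := sum_le_sum fun a (_ : a ∈ univ) => osc_of_phi hc fun i => f i a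
    rw [← mul_sum, sum_comm, sum_comm (s := univ) (t := univ)
      (f := fun a i => ∑ j, c i j * |f i a - f j a|)] at this
    simp only [mul_sum (s := (univ : Finset (Fin k)))]
    refine le_trans (le_of_eq ?_) (this.trans (le_of_eq ?_))
    · congr 1
      exact sum_congr rfl fun i _ => sum_comm
    · exact sum_congr rfl fun i _ => sum_comm
  have a2 : ∑ i, ∑ j, c i j * ∑ a, |f i a - f j a| ≤ ∑ i, ∑ j, c i j * d i j :=
    sum_le_sum fun i _ => sum_le_sum fun j _ => mul_le_mul_of_nonneg_left (hf i j) (hc.2.1 i j)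
  have a3 := mul_le_mul_of_nonneg_left (a1.trans a2) (gap_pos hn).le
  refine le_of_mul_le_mul_left ?_ hΦ
  nlinarith

end Vale.Agent.N318
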