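import Vale.Agent.N318.IsoGeo
import Vale.Agent.N318.Sep
import Vale.Agent.P318.E.All

/-!
The instance with the window parameter of order `1 / log l`, and the final lower bound.
-/

namespace Vale.Agent.P318.E

open Finset Filter Real
open B (cd Kt tc)
open C C.InstC

theorem ev_pow (T : ℝ) : ∀ᶠ l : ℝ in atTop, (T * log l ^ 9) ^ 100 ≤ l := by
  have h := (isLittleO_log_rpow_rpow_atTop 900 one_pos).bound
    (show 0 < 1 / (T ^ 100 + 1) by positivity)
  filter_upwards [h, eventually_ge_atTop 1] with l h h1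
  rw [norm_of_nonneg (rpow_nonneg (log_nonneg h1) _), norm_of_nonneg (by positivity), rpow_one,
    one_div, le_inv_mul_iff₀ (by positivity)] at h
  have e : log l ^ (900 : ℝ) = (log l ^ 9) ^ 100 := by
    rw [← pow_mul]; exact_mod_cast rfl
  rw [e] at h
  have : 0 ≤ (log l ^ 9) ^ 100 := by positivity
  rw [mul_pow]
  linarith

theorem inst3 (hE : ExistEStmt) (hI : Iso3Stmt) (hG : Geo3Stmt) (hM : ModelStmt) :
    ∃ c : ℝ, 0 < c ∧ ∃ n0 : ℕ, ∀ n : ℕ, n0 ≤ n → ∀ N : ℕ, exp (3 * n) ≤ N →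
      c * √n / (log n ^ (3 / 2 : ℝ) * log (log n) ^ 135) ≤ gap N := by
  obtain ⟨c0, C1, hc, hC, l0, hE⟩ := hE
  obtain ⟨ω1, K1, l1, o1, k1, hI⟩ := hI c0 C1 hc hC
  obtain ⟨K0, l2, k0, hG⟩ := hG
  obtain ⟨T, hT⟩ : ∃ T : ℝ, T = K0 ^ 10 + K1 * K0 ^ 7 := ⟨_, rfl⟩
  have k2 : 0 < K0 := by linarith
  have k3 : 1 ≤ K0 := by linarith
  have T1 : K0 ^ 10 ≤ T := by rw [hT]; exact le_add_of_nonneg_right (by positivity)
  have T2 : K1 * K0 ^ 7 ≤ T := by rw [hT]; exact le_add_of_nonneg_left (by positivity)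
  have T3 : 1 ≤ T := (one_le_pow₀ k3).trans T1
  obtain ⟨n1, hn⟩ := eventually_atTop.1 ((tendsto_log.eventually_ge_atTop l0).and
    ((eventually_ge_atTop 200).and
    ((tendsto_log.eventually_ge_atTop l1).and ((tendsto_log.eventually_ge_atTop l2).and
      ((tendsto_log.eventually_ge_atTop 4).and
        (((tendsto_log_atTop.comp tendsto_log).eventually_ge_atTop (max 1 (1 / ω1))).and
        (tendsto_log.eventually (ev_pow T))))))))
  refine ⟨1 / (276480000 * T ^ 15), by positivity, n1, fun n h N hN => ?_⟩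
  obtain ⟨b0, b1, b2, b3, b4, b5, b6⟩ := hn n h
  simp only [Function.comp, max_le_iff] at b5
  obtain ⟨u1, u2⟩ := b5
  set u := log (log n) with hu
  have u0 : 0 < u := by linarith
  have p0 : (0 : ℝ) < n := by positivity
  have p1 : 0 < log n := by linarith
  have p4 : 1 ≤ T * u ^ 9 := one_le_mul_of_one_le_of_one_le T3 (one_le_pow₀ u1)
  have rg : Rg (log n) (T * u ^ 9) :=
    ⟨(pow_le_pow_right₀ u1 (by norm_num)).trans (le_mul_of_one_le_left (by positivity) T3), b6⟩
  have o0 : 0 < 1 / (K0 * u) := by positivity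
  have g1 : K0 ≤ (1 / (K0 * u)) ^ 9 * (T * u ^ 9) := by
    rw [show (1 / (K0 * u)) ^ 9 * (T * u ^ 9) = T / K0 ^ 9 by field_simp, le_div_iff₀ (by positivity)]
    linarith
  have g2 : K1 * u ^ 2 ≤ (1 / (K0 * u)) ^ 7 * (T * u ^ 9) := by
    rw [show (1 / (K0 * u)) ^ 7 * (T * u ^ 9) = T / K0 ^ 7 * u ^ 2 by field_simp]
    exact mul_le_mul_of_nonneg_right ((le_div_iff₀ (by positivity)).2 T2) (by positivity)
  have g3 : 1 / (K0 * u) ≤ ω1 := by
    rw [one_div_le (by positivity) o1]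
    exact u2.trans (le_mul_of_one_le_left u0.le k3)
  have g4 : 1 / (K0 * u) ≤ 1 / 8 := one_div_le_one_div_of_le (by norm_num) (by nlinarith)
  obtain ⟨B, A, _, _, _, _, M, blk, s, Γ, Γ', J0, wt, F, K, LG, cG, φ, P, sc, Kn, e, Γt, sh, C1t,
    C2t, g, i⟩ := hE n _ b0 rg
  obtain ⟨c, dd, md⟩ := hG _ o0 _ B M blk s Γ J0 wt _ _ F K LG cG φ b3 rg g1
    (le_of_eq (by rw [← hu]; field_simp)) g
  have hI := hI _ o0 g3 _ B A M blk s Γ' P sc Kn e Γt _ _ sh C1t C2t b2 rg g2 i c
  have k1 := card_le g.sys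
  have k2 := g.sys.row
  have k3 := g.phi_le
  have cn : cd (Fin n) = n := by simp [cd]
  rw [cn] at md hI k1 k2
  refine le_trans ?_ (hM _ _ (tc s) c dd (n ^ 2) _ _ _ _ ⟨o0, g4, by positivity, ?_⟩
    (by positivity) (by positivity) (by positivity) (Nat.one_le_pow _ _ (by omega))
    (by simpa using k2) md hI N ?_)
  · have r1 : log n ^ (3 / 2 : ℝ) = log n * √(log n) := by
      rw [sqrt_eq_rpow, ← rpow_one_add' p1.le (by norm_num)]; norm_num
    have r2 : √(n : ℝ) ≠ 0 := by positivity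
    rw [r1]
    refine le_of_eq ?_
    field_simp
    norm_num
  · change 1 / (log n * (T * u ^ 9)) ≤ 1 / (K0 * u) / 4
    rw [div_div]
    refine one_div_le_one_div_of_le (by positivity) ?_
    have a1 : K0 * u ≤ T * u ^ 9 := mul_le_mul ((le_self_pow₀ (by linarith) (by norm_num)).trans T1)
      (le_self_pow₀ u1 (by norm_num)) u0.le (by linarith)
    rw [mul_comm]
    exact mul_le_mul b4 a1 (by positivity) p1.le
  · rw [Fintype.card_fin]
    refine Nat.cast_le.1 ((size b1 ?_).trans hN)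
    have k4 := k1.trans (mul_le_mul_of_nonneg_left k3 p0.le)
    rw [mul_one_div, le_div_iff₀ (by positivity)] at k4
    refine le_trans ?_ k4
    rw [mul_comm]
    refine mul_le_mul_of_nonneg_left ?_ (Nat.cast_nonneg _)
    nlinarith [mul_le_mul_of_nonneg_left (one_le_pow₀ p4 (n := 10)) (sq_nonneg (log n))]

/-- The lower bound for the gap. -/
theorem final3 : ∃ c : ℝ, 0 < c ∧ ∃ N0 : ℕ, ∀ N : ℕ, N0 ≤ N → c * N318.low N ≤ gap N := by
  have hW := win_proof
  have hD := deriv_proof hW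
  have hF := fourier_proof hW
  have hTV := tv_proof hW gauss_proof hD
  have hP := poin3_proof hW hD hF hTV (noised_proof hW hD hF) fibre_proof
  have hN := near3_proof hW gauss_proof hD (small_proof hW hoef_proof) (small2_proof hW hoef_proof)
  have hI := iso3_proof hW (block3_proof hW line_proof hD hN) hP
  have hL := law_proof hW
  have hC := conc_proof hW hL
  have hG := geo3_proof B.proj_proof lev_proof (decE_proof lev_proof B.pat_proof)
    (rp_proof lev_proof) (mean_proof hW hL hC B.proj_proof) (vmean_proof hW hL hC B.proj_proof)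
    (typE_proof hW hL hC B.pat_proof B.proj_proof)
    (g1_proof lev_proof core_proof B.pat_proof B.proj_proof)
    (g2E_proof lev_proof (sumE_proof coreE_proof) B.pat_proof B.proj_proof) profE_proof
    (metricC_proof hW B.proj_proof)
  have hE := existE_proof parE_proof (detE_proof rip_proof) part_proof lawEx2_proof ripS_proof
    rowI_proof lowGE_proof (c1c_proof B.pat_proof) (c1n_proof B.pat_proof) leave_proof
  obtain ⟨c, hc, n0, h⟩ := inst3 hE hI hG (model_proof hW hD)
  obtain ⟨N0, hN⟩ := eventually_atTop.1 ((eventually_gt_atTop 0).and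
    ((tendsto_log.eventually_ge_atTop (3 * n0)).and (tendsto_log.eventually_ge_atTop 15)))
  refine ⟨c / 3, by positivity, N0, fun N a => ?_⟩
  obtain ⟨a1, a2, a3⟩ := hN N a
  have f1 : (⌊log N / 3⌋₊ : ℝ) ≤ log N / 3 := Nat.floor_le (by positivity)
  have f2 := Nat.lt_floor_add_one (log N / 3)
  have f3 : n0 ≤ ⌊log N / 3⌋₊ := Nat.le_floor (by linarith)
  set n := ⌊log N / 3⌋₊
  refine le_trans ?_ (h n f3 N ?_)
  · have p : 1 < log n := by
      rw [lt_log_iff_exp_lt (by linarith)]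
      linarith [exp_one_lt_d9]
    have p' := log_pos p
    have q : √(log N) ≤ 3 * √n := by
      rw [← sqrt_sq zero_le_three, ← sqrt_mul (by positivity)]
      exact sqrt_le_sqrt (by linarith)
    have r : log n ≤ log (log N) := log_le_log (by linarith) (by linarith)
    unfold N318.low
    rw [← mul_div_assoc]
    refine div_le_div₀ (by positivity) (by nlinarith) (by positivity) ?_
    have := log_le_log (by linarith) r
    gcongr
    exact rpow_nonneg (by linarith) _
  · rw [← exp_log (Nat.cast_pos.2 a1), exp_le_exp]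
    linarith

end Vale.Agent.P318.E

namespace Vale.Agent.N318

open Finset Filter Real Vale.Agent.P318
open C.InstC

theorem low_ge (K : ℝ) : ∀ᶠ n : ℕ in atTop, K ≤ low n := by
  have h := (isLittleO_log_rpow_rpow_atTop 137 one_half_pos).bound
    (show 0 < 1 / (|K| + 1) by positivity)
  filter_upwards [tendsto_log.eventually h,
    (tendsto_log_atTop.comp tendsto_log).eventually_gt_atTop 1, tendsto_log.eventually_ge_atTop 0]
    with n h h1 h0
  simp only [Function.comp] at h1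
  set u := log (log n)
  have u0 : 0 < u := by linarith
  have p := log_pos h1
  rw [norm_of_nonneg (by positivity), norm_of_nonneg (by positivity), one_div,
    le_inv_mul_iff₀ (by positivity), ← sqrt_eq_rpow] at h
  unfold low
  rw [le_div_iff₀ (by positivity)]
  have a1 : u ^ (3 / 2 : ℝ) * log u ^ 135 ≤ u ^ (137 : ℝ) := by
    rw [show (137 : ℝ) = 2 + (135 : ℕ) by norm_num, rpow_add u0, rpow_natCast]
    exact mul_le_mul (rpow_le_rpow_of_exponent_le h1.le (by norm_num))
      (pow_le_pow_left₀ p.le (log_le_self u0.le) _) (by positivity) (by positivity)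
  refine le_trans ?_ h
  exact mul_le_mul ((le_abs_self K).trans (by linarith)) a1 (by positivity) (by positivity)

theorem exists_root (n0 : ℕ) {N : ℕ} (hN : 36 * n0 ^ 11 ≤ N) :
    ∃ n, n0 ≤ n ∧ 36 * n ^ 11 ≤ N ∧ N < 36 * (n + 1) ^ 11 := by
  have h : ∃ m, N < 36 * (n0 + m + 1) ^ 11 := ⟨N, by
    have := Nat.le_self_pow (n := 11) (by norm_num) (n0 + N + 1)
    omega⟩
  classical
  refine ⟨n0 + Nat.find h, Nat.le_add_right _ _, ?_, Nat.find_spec h⟩
  rcases Nat.eq_zero_or_pos (Nat.find h) with e | e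
  · rwa [e]
  · have := Nat.find_min h (Nat.sub_one_lt e.ne')
    rwa [not_lt, add_assoc, Nat.sub_add_cancel e] at this

/-- The lower bound on graphs of maximum degree three. -/
theorem subcubic_low : ∃ c : ℝ, 0 < c ∧ ∃ N0 : ℕ, ∀ N : ℕ, N0 ≤ N →
    ∃ G : SimpleGraph (Fin N), Subcubic G ∧ 0 < glValue (edgeCap G) ∧
      c * low N ≤ Phi (edgeCap G) / glValue (edgeCap G) := by
  obtain ⟨c, hc, n0, h⟩ := E.final3
  refine ⟨c / (4 * 10 ^ 10), by positivity, 36 * (max n0 300) ^ 11, fun N hN => ?_⟩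
  obtain ⟨n, h1, h2, h3⟩ := exists_root _ hN
  rw [max_le_iff] at h1
  obtain ⟨G, g1, g2, g3⟩ := reduce (n := n) (by omega) h2
  refine ⟨G, g1, g2, ?_⟩
  have n3 : (300 : ℝ) ≤ n := by exact_mod_cast h1.2
  have nN : n ≤ N := by
    have := Nat.le_self_pow (n := 11) (by norm_num) n
    omega
  have a1 : N ≤ n ^ 16 := by
    have b1 : (n + 1) ^ 11 ≤ (2 * n) ^ 11 := Nat.pow_le_pow_left (by omega) _
    have b2 : 300 ^ 5 ≤ n ^ 5 := Nat.pow_le_pow_left h1.2 _
    have b3 := Nat.mul_le_mul_right (n ^ 11) b2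
    rw [mul_pow] at b1
    rw [← pow_add, show 5 + 11 = 16 from rfl] at b3
    omega
  have a2 : (n : ℝ) ≤ N := by exact_mod_cast nN
  have a3 : log N ≤ 16 * log n := by
    have : (N : ℝ) ≤ (n : ℝ) ^ 16 := by exact_mod_cast a1
    have := log_le_log (by linarith) this
    rwa [log_pow] at this
  have p1 : 3 < log n := by
    rw [lt_log_iff_exp_lt (by linarith), show (3 : ℝ) = (3 : ℕ) * 1 by norm_num, exp_nat_mul]
    exact (pow_lt_pow_left₀ (exp_one_lt_d9.trans (show _ < (3 : ℝ) by norm_num)) (exp_pos 1).le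
      (by norm_num)).trans_le (by linarith)
  have p2 : 1 < log (log n) := by
    rw [lt_log_iff_exp_lt (by linarith)]
    linarith [exp_one_lt_d9]
  have p3 := log_pos p2
  have q1 := log_le_log (by linarith) (log_le_log (by linarith) a2)
  have q2 := log_le_log (by linarith) q1
  have q3 : √(log N) ≤ 4 * √(log n) := by
    rw [← sqrt_sq zero_le_four, ← sqrt_mul (by positivity)]
    exact sqrt_le_sqrt (by linarith)
  have q4 : low N ≤ 4 * low n := by
    unfold low
    rw [← mul_div_assoc]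
    refine div_le_div₀ (by positivity) q3 (by positivity) ?_
    gcongr
    exact rpow_nonneg (by linarith) _
  have q5 := (h n h1.1).trans g3
  have q6 := mul_le_mul_of_nonneg_left q4 hc.le
  rw [div_mul_eq_mul_div, div_le_iff₀ (by positivity)]
  linarith

theorem subcubic_sep {a b : ℝ} (ha : 0 < a) (hb0 : 0 ≤ b) (hb : b < 1 / 2) :
    ∃ c : ℝ, 0 < c ∧ ∃ N0 : ℕ, ∀ N : ℕ, N0 ≤ N →
      ∃ G : SimpleGraph (Fin N), Subcubic G ∧ 0 < glValue (edgeCap G) ∧
        c * low N ≤ Phi (edgeCap G) / glValue (edgeCap G) ∧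
        ∃ v, IsSepSol b v ∧ ∀ S : Finset (Fin N), a * N ≤ S.card → a * N ≤ Sᶜ.card →
          c * low N * sepValue (edgeCap G) v ≤ ∑ i ∈ S, ∑ j ∈ Sᶜ, edgeCap G i j := by
  obtain ⟨c, hc, n0, h⟩ := subcubic_low
  have b1 : 0 < (1 - 2 * b) ^ 2 := pow_pos (by linarith) 2
  obtain ⟨n1, h1⟩ := eventually_atTop.1 ((low_ge (16 / (c * (1 - 2 * b) ^ 2))).and
    ((eventually_ge_atTop n0).and (eventually_ge_atTop 2)))
  obtain ⟨θ, θ0, θ1, θ2⟩ : ∃ θ : ℝ, 0 < θ ∧ θ ≤ 1 ∧ θ ≤ a * (1 - 2 * b) ^ 2 / 8 :=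
    ⟨min _ _, lt_min one_pos (by positivity), min_le_left _ _, min_le_right _ _⟩
  refine ⟨θ * c, by positivity, n1, fun N hN => ?_⟩
  obtain ⟨a1, a2, a3⟩ := h1 N hN
  obtain ⟨G, g1, g2, g3⟩ := h N a2
  have l0 : 0 ≤ low N := le_trans (by positivity) a1
  have hG := isCap_edgeCap G
  rw [div_le_iff₀ (by positivity)] at a1
  have g4 := (le_div_iff₀ g2).1 g3
  obtain ⟨v, v1, v2⟩ := sep a3 hG g2 hb0 hb (by nlinarith)
  refine ⟨G, g1, g2, le_trans ?_ g3, v, v1, fun S s1 s2 => ?_⟩
  · rw [mul_assoc]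
    exact mul_le_of_le_one_left (by positivity) θ1
  have e1 := ARV.cut_nonneg hG S
  simp only [sum_sub_distrib, sum_const, nsmul_eq_mul] at e1
  have e2 : (S.card : ℝ) + Sᶜ.card = N := by
    have := S.card_add_card_compl
    rw [Fintype.card_fin] at this
    exact_mod_cast this
  have N0 : (0 : ℝ) ≤ N := Nat.cast_nonneg _
  have e3 : a * N ^ 2 / 2 ≤ S.card * Sᶜ.card := by
    rcases le_total (S.card : ℝ) Sᶜ.card with e | e
    · nlinarith [mul_le_mul s1 (show (N : ℝ) / 2 ≤ Sᶜ.card by linarith) (by positivity)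
        (Nat.cast_nonneg _)]
    · nlinarith [mul_le_mul s2 (show (N : ℝ) / 2 ≤ S.card by linarith) (by positivity)
        (Nat.cast_nonneg _)]
  have e4 := mul_le_mul_of_nonneg_right e3 (ARV.Phi_nonneg hG)
  have e5 : 0 ≤ sepValue (edgeCap G) v := div_nonneg (sum_nonneg fun i _ => sum_nonneg fun j _ =>
    mul_nonneg (hG.2.1 i j) (by positivity)) zero_le_four
  have e6 := mul_le_mul_of_nonneg_right θ2 (show 0 ≤ c * low N * sepValue (edgeCap G) v by
    positivity)
  have e7 := mul_le_mul_of_nonneg_left v2 (show 0 ≤ a * (c * low N) by positivity)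
  have e8 := mul_le_mul_of_nonneg_left g4 (show 0 ≤ a * (N : ℝ) ^ 2 by positivity)
  nlinarith

end Vale.Agent.N318
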