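import Vale.Agent.N318.Blk
import Vale.Agent.P318.E.Iso
import Vale.Agent.P318.E.Geo

/-!
The isoperimetric inequality and the geometry for a window parameter which depends on the size.
-/

namespace Vale.Agent.P318.E

section

open Finset MeasureTheory Filter
open M (U01 tm Dual Lat lin Inv Ksh Eb)
open B (cd Kt tc)
open C

theorem iso_num {ω u t C CP C0 : ℝ} (h0 : 0 < ω) (h1 : ω ≤ 1) (hu : 1 ≤ u)
    (hCP : 0 < CP) (hC0 : 0 < C0) (hb : C * ω ^ 5 ≤ C0)
    (hK : (4 + (6 + 28 * CP) * (C0 * 24 ^ 2)) * u ^ 2 ≤ ω ^ 7 * t) :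
    4 / ω ≤ t ∧ 6 * C * (24 / ω) ^ 2 * u ^ 2 ≤ t ∧ 28 * CP * C * (24 / ω) ^ 2 ≤ t := by
  have u1 : 1 ≤ u ^ 2 := one_le_pow₀ hu
  have w7 : 0 < ω ^ 7 := by positivity
  have e : ω ^ 7 * (C * (24 / ω) ^ 2) ≤ C0 * 24 ^ 2 := by
    rw [show ω ^ 7 * (C * (24 / ω) ^ 2) = C * ω ^ 5 * 24 ^ 2 by field_simp]
    gcongr
  have p1 : 0 ≤ C0 * 24 ^ 2 * u ^ 2 := by positivity
  have p2 : 0 ≤ CP * (C0 * 24 ^ 2 * u ^ 2) := by positivity
  refine ⟨le_of_mul_le_mul_left ?_ w7, le_of_mul_le_mul_left ?_ w7, le_of_mul_le_mul_left ?_ w7⟩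
  · have : ω ^ 7 * (4 / ω) = 4 * ω ^ 6 := by field_simp
    have := pow_le_one₀ (n := 6) h0.le h1
    nlinarith
  · have := mul_le_mul_of_nonneg_right e (zero_le_one.trans u1)
    nlinarith
  · have a := mul_le_mul_of_nonneg_left e hCP.le
    have b := mul_le_mul_of_nonneg_left u1 (show 0 ≤ CP * (C0 * 24 ^ 2) by positivity)
    nlinarith

/-- The isoperimetric inequality. -/
def Iso3Stmt : Prop :=
  ∀ c0 C1 : ℝ, 0 < c0 → 0 ≤ C1 → ∃ ω0 K l0 : ℝ, 0 < ω0 ∧ 0 < K ∧ ∀ ω : ℝ, 0 < ω → ω ≤ ω0 →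
    ∀ (ι B A : Type) [Fintype ι] [DecidableEq ι] [Fintype B] [DecidableEq B]
      [Fintype A] [DecidableEq A] (M : B → ℕ) (blk : B → Finset ι)
      (s : (J : B) → ι → Fin (M J) → ℤ) (Γ : (J : B) → AddSubgroup (Fin (M J) → ℝ))
      (P : A → ι → B) (sc : A → ℕ) (Kn : ℕ) (e : ℕ → ℝ) (Γt : AddSubgroup (Kt M → ℝ))
      (l t sh C1t C2t : ℝ), l0 ≤ l → Rg l t → K * Real.log l ^ 2 ≤ ω ^ 7 * t →
      IAllE blk s Γ P sc Kn e Γt l t c0 C1 sh C1t C2t →
      ∀ (c : ι → ℝ) (f : (ι → ℤ) → ℝ), (∀ x, f x = 0 ∨ f x = 1) → Inv ⊤ (tc s) f →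
        tm (fun β => Ey ⟨ω, 1 / (l * t)⟩ f (c + lin (tc s) β)) *
            (1 - tm fun β => Ey ⟨ω, 1 / (l * t)⟩ f (c + lin (tc s) β)) ≤
          l * Real.sqrt l * t ^ 15 / Real.sqrt (cd ι) *
            tm (fun β => Inf ⟨ω, 1 / (l * t)⟩ univ f (c + lin (tc s) β)) + 1 / 100

open IsoE IsoC in
theorem iso3_proof (hW : WinStmt) (hB : Block3Stmt) (hP : Poin3Stmt) : Iso3Stmt := by
  intro c0 C1 hc0 hC1
  obtain ⟨ω0, hω0, hB⟩ := hB c0 hc0
  obtain ⟨C0, hC0, hB⟩ := hB C1 hC1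
  obtain ⟨CP, hCP, hP⟩ := hP
  obtain ⟨t0, ht0⟩ := ev_t
  have hu := Real.tendsto_log_atTop
  have hev := (hu.eventually_ge_atTop t0).and ((hu.eventually_ge_atTop 50).and
    ((hu.eventually_ge_atTop (2 * CP)).and (eventually_ge_atTop (1 : ℝ))))
  obtain ⟨l0, hl0⟩ := eventually_atTop.1 hev
  refine ⟨min ω0 (1 / 8), 4 + (6 + 28 * CP) * (C0 * 24 ^ 2), l0, by positivity, by positivity,
    fun ω hω hωle => ?_⟩
  obtain ⟨C, hC, hCb, hB⟩ := hB ω hω (hωle.trans (min_le_left _ _))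
  have hω8 : ω ≤ 1 / 8 := hωle.trans (min_le_right _ _)
  intro ι B A _ _ _ _ _ _ M blk s Γ P sc Kn e Γt l t sh C1t C2t hl hR hK H c f hf hI
  obtain ⟨ha, hd, hh, hl1⟩ := hl0 l hl
  obtain ⟨hb, hc, hg⟩ := iso_num hω (by linarith) (by linarith) hCP hC0 hCb hK
  obtain ⟨hR1, hR2⟩ := hR
  have hl0' : 0 < l := by linarith
  set u : ℝ := Real.log l with hu_def
  have hut : u ≤ t := (le_self_pow₀ (by linarith) (by norm_num)).trans hR1
  have ht1 : 1 ≤ t := by linarith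
  have ht0' : 0 < t := by linarith
  have htl : t ≤ l := (le_self_pow₀ ht1 (by norm_num)).trans hR2
  set w : Wn := ⟨ω, 1 / (l * t)⟩ with hw
  have hok : w.Ok := ⟨hω, hω8, by simp only [hw]; positivity, by
    have a : 4 / ω ≤ l * t := hb.trans (le_mul_of_one_le_left ht0'.le hl1)
    calc 1 / (l * t) ≤ 1 / (4 / ω) := one_div_le_one_div_of_le (by positivity) a
      _ = ω / 4 := by field_simp⟩
  have hWw := hW w hok
  have hF1 : 1 ≤ Fi w := hWw.Fi_ge
  have hFu : Fi w ≤ 24 / ω * u := by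
    refine hWw.Fi_le.trans ?_
    have e1 : w.om / w.et ≤ l ^ 2 := by
      simp only [hw]
      rw [div_div_eq_mul_div, div_one]
      calc ω * (l * t) ≤ 1 * (l * l) := by gcongr; linarith
        _ = l ^ 2 := by ring
    have e2 : Real.log (w.om / w.et) ≤ 2 * u := by
      refine (Real.log_le_log (div_pos hok.1 hok.2.2.1) e1).trans_eq ?_
      rw [Real.log_pow, Nat.cast_ofNat]
    calc 8 / w.om * (1 + Real.log (w.om / w.et)) ≤ 8 / ω * (3 * u) := by
          have : w.om = ω := rfl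
          rw [this] at e2 ⊢
          gcongr
          linarith
      _ = _ := by ring
  have hF2 : C * Fi w ^ 2 ≤ C * (24 / ω) ^ 2 * u ^ 2 := by
    rw [mul_assoc, ← mul_pow]
    gcongr
  have hn1 : 1 < cd ι := by
    by_contra hh
    have : Real.log (cd ι) ≤ 0 :=
      Real.log_nonpos (by unfold cd; positivity) (not_lt.1 hh)
    linarith [H.l_eq]
  have hn0 : 0 < cd ι := by linarith
  have hexp : Real.exp l = cd ι := by rw [H.l_eq, Real.exp_log hn0]
  have hL1 : 1 ≤ C * Fi w ^ 2 := one_le_mul_of_one_le_of_one_le hC (one_le_pow₀ hF1)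
  have hLX : 6 * (C * Fi w ^ 2) ≤ t :=
    calc 6 * (C * Fi w ^ 2) ≤ 6 * C * (24 / ω) ^ 2 * u ^ 2 := by linarith
      _ ≤ t := hc
  have hU : U01 f := fun x => by rcases hf x with h | h <;> simp [h]
  have het : 0 ≤ w.et := hok.2.2.1.le
  have hsn : 0 < Real.sqrt (cd ι) := Real.sqrt_pos.2 hn0
  have hlk : ∀ k : ℕ, 4 ≤ (k : ℝ) + 6 * u := fun k => by linarith [k.cast_nonneg (α := ℝ)]
  have key := hP ι B A M blk s Γ P sc Kn Γt c f w
    (fun k => C * Fi w * (Real.sqrt (k + 6 * u) + 2 * l * w.et) * e k) (C * Fi w ^ 2)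
    (1 / t) t (Real.sqrt (cd ι) / l ^ 3) sh C1t C2t hok
    (fun k => by have := H.e_nonneg k; positivity) (by positivity) hL1 (by positivity)
    (by rw [div_mul_eq_mul_div, one_mul, div_le_iff₀ ht0']; linarith) (by linarith)
    (by
      refine le_trans ?_ (ht0 t (ha.trans hut))
      have a : C * Fi w ^ 2 ≤ t := by linarith
      calc 200 * (C * Fi w ^ 2) * t * Real.exp (-t) ≤ 200 * t * t * Real.exp (-t) := by gcongr
        _ = _ := by ring)
    H.one_le H.coll H.zero H.part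
    (fun a i hk => by
      have hb' := H.block a i hk
      have : Nonempty (Fin (M (P a i))) := ⟨⟨0, H.dim_pos _⟩⟩
      have he := H.e_nonneg (sc a)
      refine blockAt_mono (hB w hok rfl ι (Fin (M (P a i))) (Γ (P a i)) (blk (P a i)) (s (P a i))
        (e (sc a)) (sc a + 6 * u) (2 * l) hb'.lat hb'.dual (H.t3 _) hb'.norm (H.zero _) hb'.zpat
        hb'.split hb'.ksh he (by linarith [hlk (sc a)]) (by linarith)) ?_
      have b := blk_err hl1 htl (Nat.cast_nonneg _) hexp (H.big a i hk)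
      have d : 2 ≤ Real.sqrt (sc a + 6 * u) + 2 * l * w.et :=
        (Real.le_sqrt_of_sq_le (by linarith [hlk (sc a)])).trans
          (le_add_of_nonneg_right (by positivity))
      calc _ ≤ C * Fi w * (e (sc a) * (2 * (Real.sqrt (cd ι) / l ^ 3 *
            (blk (P a i)).card / cd ι))) := by gcongr
        _ ≤ C * Fi w * (e (sc a) * ((Real.sqrt (sc a + 6 * u) + 2 * l * w.et) *
            (Real.sqrt (cd ι) / l ^ 3 * (blk (P a i)).card / cd ι))) := by gcongr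
        _ = _ := by ring)
    H.sh_pos H.C1t_pos H.C2t_nonneg H.lat H.dual (fun j x => H.t3 x.1 j x.2) H.split hU hI
  have hff : (fun x => f x ^ 2) = f := by
    funext x; rcases hf x with h | h <;> simp [h]
  rw [hff] at key
  have hI0 : 0 ≤ tm fun β => Inf w univ f (c + lin (tc s) β) :=
    integral_nonneg fun β => inf_nonneg hWw _ _ _
  have hfin := last (C := C) (CP := CP) (F := Fi w) (G := 7 * u) (t := t)
    (Z := l * Real.sqrt l / Real.sqrt (cd ι)) (q := C1t / sh) (r := Real.sqrt (C2t / sh))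
    (S := ∑ k ∈ Icc 1 Kn, (1 / 2 : ℝ) ^ k * ((k + 1) * e k)) (P := 1 / 2 ^ Kn)
    (I := tm fun β => Inf w univ f (c + lin (tc s) β)) (Y := Real.sqrt (cd ι) / l ^ 3)
    (S' := ∑ k ∈ Icc 1 Kn, (1 / 2 : ℝ) ^ k *
      (C * Fi w * (Real.sqrt (k + 6 * u) + 2 * l * w.et) * e k))
    hC hCP hF1 (by linarith) ht1 (div_nonneg H.C1t_pos.le H.sh_pos.le)
    (by rw [div_le_iff₀ H.sh_pos]; exact H.C1t_le) (by positivity)
    (by
      have a : C2t / sh ≤ l ^ 3 * t ^ 20 / cd ι := by rw [div_le_iff₀ H.sh_pos]; exact H.C2t_le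
      rw [Real.sqrt_le_left (by positivity)]
      refine a.trans_eq ?_
      rw [mul_pow, div_pow, mul_pow, Real.sq_sqrt hn0.le, Real.sq_sqrt hl0'.le]
      ring)
    (by positivity) (H.e_sum.trans_eq (by ring)) hI0 (by positivity)
    (by
      rw [mul_sum]
      refine sum_le_sum fun k _ => ?_
      have he := H.e_nonneg k
      have hk := k.cast_nonneg (α := ℝ)
      have a : Real.sqrt (k + 6 * u) ≤ k + 6 * u :=
        Real.sqrt_le_iff.2 ⟨by linarith, le_self_pow₀ (by linarith) two_ne_zero⟩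
      have b : l * w.et ≤ 1 := by
        simp only [hw]
        rw [mul_one_div, div_le_one (by positivity)]
        exact le_mul_of_one_le_right hl0'.le ht1
      have d : Real.sqrt (k + 6 * u) + 2 * l * w.et ≤ 7 * u * (k + 1) := by nlinarith
      calc (1 / 2 : ℝ) ^ k * (C * Fi w * (Real.sqrt (k + 6 * u) + 2 * l * w.et) * e k)
          ≤ (1 / 2 : ℝ) ^ k * (C * Fi w * (7 * u * (k + 1)) * e k) := by gcongr
        _ = _ := by ring)
    (by
      calc 4 * CP * (C * Fi w ^ 2 * (7 * u))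
          ≤ 4 * CP * (C * (24 / ω) ^ 2 * u ^ 2 * (7 * u)) := by gcongr
        _ = 28 * CP * C * (24 / ω) ^ 2 * u ^ 3 := by ring
        _ ≤ t * t := mul_le_mul hg hR1 (by positivity) ht0'.le
        _ = t ^ 2 := by ring) (hh.trans hut)
    (by
      have a : Real.sqrt l ≤ l := Real.sqrt_le_iff.2 ⟨hl0'.le, le_self_pow₀ hl1 two_ne_zero⟩
      have b : 50 * t ^ 15 ≤ l :=
        calc 50 * t ^ 15 ≤ t ^ 85 * t ^ 15 := by
              gcongr
              exact (hd.trans hut).trans (le_self_pow₀ ht1 (by norm_num))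
          _ = t ^ 100 := by ring
          _ ≤ l := hR2
      calc _ = Real.sqrt l * (50 * t ^ 15) / (50 * l ^ 2) := by field_simp
        _ ≤ l * l / (50 * l ^ 2) := by gcongr
        _ = 1 / 50 := by field_simp)
  calc _ = tm (fun β => Ey w f (c + lin (tc s) β)) -
        tm (fun β => Ey w f (c + lin (tc s) β)) ^ 2 := by ring
    _ ≤ _ := key.trans hfin
    _ = _ := by ring

end

section

open Finset MeasureTheory Filter
open M (ind Eb pt zz tm BM ip nsq Dual lin Inv CND perp vv)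
open B (cf nd cd av Op IsProj rr Nice Red Kt tc res Pat pS pJ pD pw zone)
open C C.Geo

theorem lam_le3 {C ω ε l Λ : ℝ} (hC : 0 ≤ C) (h0 : 0 < ω) (hω : 10 ^ 10 * C * ω * Real.log l ≤ 1)
    (l1 : 1 ≤ l) (hε : C * (ε * l) ≤ 1)
    (h : Λ ≤ Real.exp (C * (160 * ω * (Real.log ((l ^ 4) ^ 128) + Real.log l) + ε * l))) :
    Λ ≤ 9 := by
  have lY : Real.log ((l ^ 4) ^ 128) = 512 * Real.log l := by
    rw [Real.log_pow, Real.log_pow]
    push_cast
    ring
  have ll : 0 ≤ C * ω * Real.log l := mul_nonneg (by positivity) (Real.log_nonneg l1)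
  refine h.trans (le_trans (Real.exp_le_exp.2 (?_ : _ ≤ (1 : ℝ) + 1)) ?_)
  · rw [lY]
    nlinarith
  · rw [Real.exp_add]
    nlinarith [Real.exp_one_lt_d9, Real.exp_pos 1]

/-- The geometry. -/
def Geo3Stmt : Prop :=
  ∃ K0 l0 : ℝ, 16 ≤ K0 ∧ ∀ ω : ℝ, 0 < ω →
    ∀ (ι B : Type) [Fintype ι] [DecidableEq ι] [Fintype B] [DecidableEq B] (M : B → ℕ)
      (blk : B → Finset ι) (s : (J : B) → ι → Fin (M J) → ℤ)
      (Γ : (J : B) → AddSubgroup (Fin (M J) → ℝ)) (J0 : B) (wt : B → ℝ) (l t F K LG cG φ : ℝ),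
      l0 ≤ l → Rg l t → K0 ≤ ω ^ 9 * t → K0 * ω * Real.log l ≤ 1 →
      GAllE blk s Γ J0 wt l t F K LG cG φ →
      ∃ (c : ι → ℝ) (dd : (ι → ℤ) → (ι → ℤ) → ℝ),
        MetricAt ⟨ω, 1 / (l * t)⟩ (27 * cd ι) (cd ι / 51200) (tc s) c dd

open GeoE in
theorem geo3_proof (hP : B.ProjStmt) (hL : LevStmt) (hD : DecEStmt) (hR : RPStmt) (hM : MeanStmt)
    (hV : VMeanStmt) (hT : TypEStmt) (h1 : G1Stmt) (h2 : G2EStmt) (hPr : ProfEStmt)
    (hMe : MetricCStmt) : Geo3Stmt := by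
  obtain ⟨C, hC, pr⟩ := hPr
  obtain ⟨l0, hl0⟩ := eventually_atTop.1
    ((Real.tendsto_log_atTop.eventually_ge_atTop 2).and (eventually_ge_atTop 1))
  refine ⟨10 ^ 10 * C, l0, by linarith,
    fun ω ω0 ι B _ _ _ _ M blk s Γ J0 wt l t F K LG cG φ hl rg a0 ω3 G => ?_⟩
  obtain ⟨a1, l1⟩ := hl0 l hl
  have l0' : 0 < l := one_pos.trans_le l1
  have ω4 : 10 ^ 10 * C * ω * 2 ≤ 1 := le_trans (by gcongr) ω3
  have ω2 : ω * (160 * C) ≤ 1 := by nlinarith
  have ω1 : ω ≤ 1 / 16 := by nlinarith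
  have L4 : 4 * Real.log l ≤ t := le_trans (by nlinarith [sq_nonneg (Real.log l - 2)]) rg.1
  have L1' : Real.log l ≤ t := by linarith
  obtain ⟨sys, wle, le, cB, rip1, rip2, low, c1, c1n, lo, K1, L1, c0, hF, hK, hLG, hc, φ0, hφ⟩ := G
  have t0 : 0 < t := by linarith
  have N := GeoE.num ω0 ω1 hC a0 rg.2 L1'
    sys.one_le_F K1 L1 c0 φ0 hF hK hLG hc hφ
  have eg : ((Fintype.card ι ^ 8 : ℕ) : ℝ) = cd ι ^ 8 := Nat.cast_pow _ _
  have n0 : 0 < cd ι := one_pos.trans ((Real.log_pos_iff (Nat.cast_nonneg _)).1 (l0'.trans_eq le))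
  have en : Real.exp l = cd ι := by rw [le, Real.exp_log n0]
  have ne : Nonempty ι := Fintype.card_pos_iff.1 (Nat.cast_pos.1 n0)
  have g1 : 1 ≤ Fintype.card ι ^ 8 := Nat.one_le_pow _ _ Fintype.card_pos
  have Q := GeoE.numN ω0 t0 N.l1 en N.tl N.m1 N.m2
  have η0 : 0 < 1 / (l * t) := by positivity
  have η1 : 1 / (l * t) ≤ ω / 8 := by simpa only [mul_one] using N.et 1 (by linarith)
  have ok : (⟨ω, 1 / (l * t)⟩ : Wn).Ok :=
    ⟨ω0, ω1.trans (by norm_num), η0, η1.trans (by show ω / 8 ≤ ω / 4; linarith)⟩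
  have δ0 : 0 < ω ^ 5 := by positivity
  have δ1 : ω ^ 5 ≤ 1 / 4 := (pow_le_pow_left₀ ω0.le ω1 5).trans (by norm_num)
  have Pm0 : 0 < 1 / (l ^ 2 * t ^ 9) := by positivity
  have Le0 : 0 ≤ 30 * l := by positivity
  have F0 : 0 ≤ F := zero_le_one.trans sys.one_le_F
  obtain ⟨⟨Sp, hSp⟩, -⟩ := hP.1 ι (Kt M) (tc s)
  have lev := fun i => ((hL ι B M blk s Γ J0 wt _ _ _ _ sys).2.2.2.2.2.2.2 Sp cG hSp c0 low i).trans
    N.pm1
  obtain ⟨k, k1, k2, k3, k4⟩ := ex_k en l1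
  obtain ⟨q, q1, q2, -, q4⟩ := ex_k (Real.exp_log l0') (show 1 ≤ Real.log l by linarith)
  have Υ := N.d1 q (Nat.cast_nonneg _) (q4.trans L4)
  have dec := hD ι B M blk s Γ J0 wt _ _ _ _ K LG _ _ (ω ^ 5) _ k q sys wle rip2 c1 c1n K1 L1
    (by positivity) δ0 δ1 k1
    (le_trans (by rw [sq]; exact mul_le_mul_of_nonneg_right (by linarith [N.F2, Q.k1]) n0.le) k2) q1
    (le_trans (by linarith [N.F2]) q2)
    (le_trans (le_div_self (by positivity) δ0 (δ1.trans (by norm_num))) Υ)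
    ((mul_le_mul_of_nonneg_left k3 (by positivity)).trans (Q.k2.trans_eq eg.symm))
    (N.d2 k q (Nat.cast_nonneg _) k4 (Nat.cast_nonneg _) (q4.trans L4))
  have rp := hR ι B M blk s Γ J0 wt _ _ _ _ K _ cG _ (1 / (l ^ 4) ^ 15) sys rip1 low lo K1
    (le_add_of_nonneg_left l0'.le) c0 (by positivity) (by positivity) N.r1 N.r2
  obtain ⟨bm, c, hc⟩ := hT ι B M blk s Sp _ (1 / (l * t)) (30 * l) _ (1 / cd ι ^ 18)
    (Fintype.card ι ^ 8) k ok ω1 η0
    ((N.et _ (le_trans (Real.sqrt_le_iff.2 ⟨Nat.cast_nonneg _, by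
      exact_mod_cast Nat.le_self_pow two_ne_zero k⟩) k4)).trans (by linarith))
    Pm0 Le0 hSp sys.zero sys.ne lev
    ((sum_le_card_nsmul _ _ _ fun J _ => eg ▸ term en l0'.le (le_trans (by norm_num) Q.n1)
      (sys.dim_pos J)).trans ((nsmul_eq_mul _ _).trans_le
        ((mul_le_mul_of_nonneg_right cB (by positivity)).trans Q.x1))) Q.x2
  have t1 := h1 ι B M blk s Γ J0 wt Sp c ⟨ω, 1 / (l * t)⟩ _ _ _ _ (ω / 10) (30 * l) _ _ _ sys dec
    hSp ω0 ω1 (by positivity) (by show ω / 10 ≤ ω / 2; linarith) Le0 δ0 le_rfl g1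
    (eg ▸ Q.g1) ((mul_le_mul_of_nonneg_left Υ (by positivity)).trans N.g1)
  have Z1 : ∀ a ≤ 128, (l ^ 4) ^ a ≤ (l ^ 4) ^ 128 := fun a ha =>
    pow_le_pow_right₀ (le_trans (by norm_num) N.Y1) ha
  have Z2 := (pow_one _).symm.trans_le (Z1 1 (by norm_num))
  have ε0 : 0 < 5000 * (1 / (l * t)) / ω := by positivity
  obtain ⟨ψ, Λ, bern, b1, b2, b3⟩ := pr (cd ι) (160 * ω) (5000 * (1 / (l * t)) / ω) ((l ^ 4) ^ 128)
    (le_trans (by norm_num) Q.n1) (by positivity) (le_of_eq_of_le (by ring) ω2) ε0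
    (le_trans (mul_le_mul_of_nonneg_left (le_mul_of_one_le_right ε0.le l1)
      (zero_le_one.trans hC)) N.p1) ((le_trans (by norm_num) N.Y1).trans Z2) (N.p2.trans Z2)
  have u0 : ∀ u, GoodE ⟨ω, 1 / (l * t)⟩ (1 / (l * t)) (30 * l) k blk s Sp (Fintype.card ι ^ 8) u →
      ∀ i, |u i| ≤ 1 / 2 + ω + ω / 8 := fun u hu i =>
    (hu.1.1 i).trans (by show 1 / 2 + ω + ω / 10 ≤ _; linarith)
  have u1 := fun u hu i => (u0 u hu i).trans (show _ ≤ (1 : ℝ) by linarith)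
  obtain ⟨dd, hd⟩ := hMe ι (Kt M) (tc s) Sp c _ _ ψ Λ (1 / cd ι ^ 15) hSp sys.unit ok u1 bern b1
    (tri (G := fun x => GoodE _ _ _ k blk s Sp _ (vv (tc s) Sp c x)) rr_symm
      fun x x' x'' g g' g'' h => b3 _ _ _ (rr_nonneg ..) h (rr_le (u1 _ g') (u1 _ g''))
        (rr_nonneg ..) (t1 x x' x'' g.1 g'.1 g''.1) fun i hi hb h' => by
          have ik : i < k := (pow_lt_pow_iff_right₀ (one_lt_two (α := ℝ))).1
            (lt_of_lt_of_le (hi.trans_lt (by nlinarith [Q.n1])) k2)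
          obtain ⟨s1, s2⟩ := sqrt_bd i
          have e1 : 1 / (l * t) ≤ 1 / (l * t) * Real.sqrt ((i : ℝ) + 1) :=
            le_mul_of_one_le_right η0.le s1
          have e0 := η0.trans_le e1
          have e2 : 1 / (l * t) * Real.sqrt ((i : ℝ) + 1) ≤ ω / 8 :=
            N.et _ (s2.trans (le_trans (by exact_mod_cast ik) k4))
          have e3 := N.pm2.trans (pow_le_pow_left₀ η0.le e1 2)
          have x0 := (Real.exp_pos (-(1 / (l * t)) ^ 2 / (16 * (1 / (l ^ 2 * t ^ 9))))).le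
          have η2 : 1 / (l * t) ≤ 1 := by linarith
          have η3 : (1 / (l * t)) ^ 3 ≤ 1 / (l * t) := pow_le_of_le_one η0.le η2 (by norm_num)
          have mean := hM.2 ι B M s Sp _ _ _ ok e0 (by linarith) e1 hSp Pm0 (by linarith) lev (by
            rw [exp_res]
            have := pow_le_of_le_one x0 (by linarith [N.xx]) (Nat.add_one_ne_zero i)
            linarith [N.xx])
          have vok := hV ι B M s Sp _ _ _ ok e0 hSp Pm0 lev
          rw [exp_res] at vok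
          have t2 := h2 ι B M blk s Γ J0 wt Sp c ⟨ω, 1 / (l * t)⟩ _ _ _ _ _ _ (30 * l) _ _ _ _ sys dec
            (rp_mono rp (le_trans ((mul_div_assoc _ _ _).trans_le
              (mul_le_mul_of_nonneg_left N.pm1 (by norm_num))) e3) N.r3) hSp mean vok ω0 ω1 e0 e2
            (by positivity) Le0 δ0.le δ1 g1 (eg ▸ Q.g2) N.Y1 N.Y2 (by linarith [N.g2]) N.Y3
            (((one_div_le e0 (by positivity)).2 e1).trans N.Y4)
            x x' x'' (fun j => ⟨u0 _ g j, u0 _ g' j, u0 _ g'' j⟩) (g.2 ⟨i, ik⟩) (g'.2 ⟨i, ik⟩)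
            (g''.2 ⟨i, ik⟩) h h'
          have r0 := rr_nonneg (S := tc s) (Sp := Sp) (c := c) x x'
          have r1 := rr_nonneg (S := tc s) (Sp := Sp) (c := c) x' x''
          have df := defect ω0 ω1 η0 η2 x0 N.xx r0 r1 hb
          have zz := mul_le_mul_of_nonneg_right (mul_le_mul_of_nonneg_right
            (Z1 11 (by norm_num)) (show 0 ≤ rr (tc s) Sp c x' x'' + 1 by positivity))
            (show 0 ≤ ((rr (tc s) Sp c x' x'' + 1) / cd ι) ^ (1 / 32 : ℝ) by positivity)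
          linarith)
    (by positivity) Q.pb1 bm (hc.trans (Q.pb2 k k4))
  refine ⟨c, dd, metric_mono hd ?_⟩
  rw [← le] at b2
  have s3 := lam_le3 (by linarith) ω0 ω3 l1 N.p1 b2
  calc _ ≤ 9 * (3 * cd ι) := mul_le_mul s3 Q.sq (by positivity) (by positivity)
    _ = _ := by ring

end

end Vale.Agent.P318.E
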