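import Vale.Agent.N318.Cubic
import Vale.Agent.P318.ARV.Round

/-!
The integrality gap is attained, up to an absolute constant and a polynomial change of the number
of vertices, on graphs of maximum degree three.
-/

namespace Vale.Agent.N318

open Finset Vale.Agent.P318

variable {n : ℕ}

theorem isCap_edgeCap (G : SimpleGraph (Fin n)) : IsCap (edgeCap G) := by
  refine ⟨fun i j => ?_, fun i j => ?_, fun i => ?_⟩
  · unfold edgeCap; rw [G.adj_comm]
  · unfold edgeCap; split_ifs <;> norm_num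
  · simp [edgeCap]

theorem osc_of_phi {c : Fin n → Fin n → ℝ} (hc : IsCap c) (g : Fin n → ℝ) :
    Phi c * ∑ i, ∑ j, |g i - g j| ≤ ∑ i, ∑ j, c i j * |g i - g j| := by
  have h1 := ARV.sweep hc g
  have h2 := ARV.sweep hc fun i => -g i
  have h3 : ∑ i, ∑ j, (c i j - Phi c) * |g i - g j| =
      ∑ i, ∑ j, (c i j - Phi c) * max (g i - g j) 0 +
        ∑ i, ∑ j, (c i j - Phi c) * max (-g i - -g j) 0 := by
    simp only [← sum_add_distrib, ← mul_add]
    refine sum_congr rfl fun i _ => sum_congr rfl fun j _ => ?_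
    congr 1
    rcases le_total (g i) (g j) with h | h
    · rw [abs_of_nonpos (by linarith), max_eq_right (by linarith), max_eq_left (by linarith)]; ring
    · rw [abs_of_nonneg (by linarith), max_eq_left (by linarith), max_eq_right (by linarith)]; ring
  have h4 : 0 ≤ ∑ i, ∑ j, (c i j - Phi c) * |g i - g j| := by linarith
  simp only [sub_mul, sum_sub_distrib, ← mul_sum] at h4
  linarith

theorem sum_ind {c : Fin n → Fin n → ℝ} (hs : ∀ i j, c i j = c j i) (S : Finset (Fin n)) :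
    ∑ i, ∑ j, c i j * |(if i ∈ S then 1 else 0 : ℝ) - (if j ∈ S then 1 else 0)| =
      2 * ∑ i ∈ S, ∑ j ∈ Sᶜ, c i j := by
  have h1 : ∀ i ∈ S, ∑ j, c i j * |(if i ∈ S then 1 else 0 : ℝ) - (if j ∈ S then 1 else 0)| =
      ∑ j ∈ Sᶜ, c i j := by
    intro i hi
    rw [← sum_add_sum_compl S, sum_eq_zero fun j hj => by simp [hi, hj], zero_add]
    exact sum_congr rfl fun j hj => by simp [hi, mem_compl.1 hj]
  have h2 : ∀ i ∈ Sᶜ, ∑ j, c i j * |(if i ∈ S then 1 else 0 : ℝ) - (if j ∈ S then 1 else 0)| =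
      ∑ j ∈ S, c j i := by
    intro i hi
    rw [← sum_add_sum_compl S, sum_eq_zero (s := Sᶜ) fun j hj => by
      simp [mem_compl.1 hi, mem_compl.1 hj], add_zero]
    exact sum_congr rfl fun j hj => by simp [mem_compl.1 hi, hj, hs i j]
  rw [← sum_add_sum_compl S, sum_congr rfl h1, sum_congr rfl h2, sum_comm (s := Sᶜ)]
  ring

theorem le_phi (hn : 2 ≤ n) {c : Fin n → Fin n → ℝ} {φ : ℝ}
    (hcut : ∀ S : Finset (Fin n), S.Nonempty → S ≠ univ →
      φ * ((S.card : ℝ) * ((n : ℝ) - (S.card : ℝ))) ≤ ∑ i ∈ S, ∑ j ∈ Sᶜ, c i j) : φ ≤ Phi c := by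
  refine le_csInf ⟨_, {⟨0, by omega⟩}, singleton_nonempty _, fun h => ?_, rfl⟩ ?_
  · have : (⟨1, by omega⟩ : Fin n) ∈ ({⟨0, by omega⟩} : Finset (Fin n)) := h ▸ mem_univ _
    simp at this
  · rintro r ⟨S, h1, h2, rfl⟩
    unfold cutRatio
    rw [le_div_iff₀ (zero_lt_one.trans_le (one_le_card_mul h1 h2))]
    exact hcut S h1 h2

theorem le_phi_of_osc (hn : 2 ≤ n) {c : Fin n → Fin n → ℝ} (hc : IsCap c) {φ : ℝ}
    (h : ∀ f : Fin n → ℝ, Bool01 f →
      φ * ∑ i, ∑ j, |f i - f j| ≤ ∑ i, ∑ j, c i j * |f i - f j|) : φ ≤ Phi c := by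
  refine le_phi hn fun S _ _ => ?_
  have h1 := h (fun i => if i ∈ S then 1 else 0) fun i => by beta_reduce; split_ifs <;> simp
  have h2 := sum_ind (c := fun _ _ => 1) (fun _ _ => rfl) S
  simp only [one_mul, sum_const, nsmul_eq_mul, card_compl, Fintype.card_fin, mul_one] at h2
  rw [Nat.cast_sub (by simpa using S.card_le_univ)] at h2
  rw [sum_ind hc.1, h2] at h1
  linarith

/-- The ratio bound given by one solution of the relaxation. -/
theorem ratio_ge {c d : Fin n → Fin n → ℝ} (hc : IsCap c) (hd : NegKer d)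
    (htri : ∀ i j k, d i k ≤ d i j + d j k) (hφ : 0 < Phi c) {A D : ℝ} (hD : 0 < D)
    (hA : ∑ i, ∑ j, c i j * d i j ≤ A) (hDd : D ≤ ∑ i, ∑ j, d i j) :
    0 < glValue c ∧ glValue c * D ≤ A := by
  classical
  set s := ∑ i, ∑ j, d i j with hs
  have hs0 : 0 < s := hD.trans_le hDd
  let e : Fin n → Fin n → ℝ := fun i j => 2 / s * d i j
  have he : NegKer e := hd.const_mul (by positivity)
  have he1 : IsNegType e := by
    refine ⟨he.exists_vec, fun i j k => ?_⟩
    have := mul_le_mul_of_nonneg_left (htri i j k) (show 0 ≤ 2 / s by positivity)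
    simpa [e, mul_add] using this
  have he2 : pairSum e = 1 := by
    rw [pairSum_eq_half he.symm he.self]
    simp only [e, ← Finset.mul_sum, ← hs]
    field_simp
  have hgl0 : 0 < glValue c := by
    have h := Phi_le_glValue hc ⟨e, he1, he2⟩
    by_contra h0
    have : 2 * (n : ℝ) ^ 3 * glValue c ≤ 0 :=
      mul_nonpos_of_nonneg_of_nonpos (by positivity) (not_lt.mp h0)
    linarith
  have hgl : glValue c ≤ A / s := by
    refine (glValue_le hc he1 he2).trans ?_
    rw [pairSum_eq_half (fun i j => by rw [hc.1 i j, he.symm i j]) (fun i => by simp [he.self])]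
    have : ∑ i, ∑ j, c i j * e i j = 2 / s * ∑ i, ∑ j, c i j * d i j := by
      rw [Finset.mul_sum]
      refine Finset.sum_congr rfl fun i _ => ?_
      rw [Finset.mul_sum]
      exact Finset.sum_congr rfl fun j _ => by simp only [e]; ring
    rw [this, le_div_iff₀ hs0]
    have : 2 / s * (∑ i, ∑ j, c i j * d i j) / 2 * s = ∑ i, ∑ j, c i j * d i j := by field_simp
    linarith
  exact ⟨hgl0, (mul_le_mul_of_nonneg_left hDd hgl0.le).trans ((le_div_iff₀ hs0).mp hgl)⟩

theorem exists_near {c : Fin n → Fin n → ℝ} (h0 : 0 < glValue c) :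
    ∃ d, IsNegType d ∧ pairSum d = 1 ∧ (pairSum fun i j => c i j * d i j) < 2 * glValue c := by
  have hne : {v | ∃ d : Fin n → Fin n → ℝ, IsNegType d ∧ pairSum d = 1 ∧
      v = pairSum fun i j => c i j * d i j}.Nonempty := by
    by_contra h
    rw [Set.not_nonempty_iff_eq_empty] at h
    unfold glValue at h0
    rw [h, Real.sInf_empty] at h0
    exact lt_irrefl _ h0
  obtain ⟨_, ⟨d, h1, h2, rfl⟩, h3⟩ := exists_lt_of_csInf_lt hne
    (show glValue c < 2 * glValue c by linarith)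
  exact ⟨d, h1, h2, h3⟩

theorem gap_pos (hn : 2 ≤ n) : 0 < gap n := by
  have hd := NegKer.discrete (X := Fin n) id
  have hD : (0 : ℝ) < ∑ i : Fin n, ∑ j : Fin n, if i = j then 0 else 1 := by
    refine sum_pos' (fun i _ => sum_nonneg fun j _ => by split_ifs <;> norm_num)
      ⟨⟨0, by omega⟩, mem_univ _, sum_pos' (fun j _ => by split_ifs <;> norm_num)
        ⟨⟨1, by omega⟩, mem_univ _, by simp⟩⟩
  have h := gap_ge_fin (c := fun i j : Fin n => if i = j then 0 else 1)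
    ⟨fun i j => by simp only [eq_comm], fun i j => by beta_reduce; split_ifs <;> norm_num,
      fun i => by simp⟩ hd
    (fun i j k => by
      simp only [id]
      split_ifs <;> simp_all) one_pos hD (fun S _ _ => by
      have : ∀ i ∈ S, ∑ j ∈ Sᶜ, (if i = j then 0 else 1 : ℝ) = n - S.card := fun i hi => by
        rw [sum_congr rfl fun j hj => if_neg fun e : i = j => mem_compl.1 hj (e ▸ hi), sum_const,
          card_compl, Fintype.card_fin, nsmul_eq_mul, Nat.cast_sub (by simpa using S.card_le_univ),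
          mul_one]
      rw [sum_congr rfl this, sum_const, nsmul_eq_mul, one_mul]) (A := ∑ i : Fin n, ∑ j : Fin n, if i = j then 0 else 1)
      (sum_le_sum fun i _ => sum_le_sum fun j _ => by simp only [id]; split_ifs <;> norm_num) le_rfl
  exact lt_of_lt_of_le (by positivity) h

theorem exists_inst (hn : 2 ≤ n) : ∃ c d : Fin n → Fin n → ℝ, IsCap c ∧ IsNegType d ∧
    pairSum d = 1 ∧ 0 < Phi c ∧ gap n * (pairSum fun i j => c i j * d i j) ≤ 4 * Phi c := by
  have hg := gap_pos hn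
  have hne : {r | ∃ c : Fin n → Fin n → ℝ, IsCap c ∧ 0 < glValue c ∧
      r = Phi c / glValue c}.Nonempty := by
    by_contra h
    rw [Set.not_nonempty_iff_eq_empty] at h
    unfold gap at hg
    rw [h, Real.sSup_empty] at hg
    exact lt_irrefl _ hg
  obtain ⟨_, ⟨c, hc, h0, rfl⟩, h1⟩ := exists_lt_of_lt_csSup hne
    (show gap n / 2 < gap n by linarith)
  obtain ⟨d, h2, h3, h4⟩ := exists_near h0
  rw [lt_div_iff₀ h0] at h1
  refine ⟨c, d, hc, h2, h3, by nlinarith, by nlinarith⟩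

/-- Rounding to bounded integer capacities. -/
theorem exists_int (hn : 2 ≤ n) : ∃ (k : Fin n → Fin n → ℕ) (d : Fin n → Fin n → ℝ),
    (∀ i j, k i j = k j i) ∧ (∀ i j, k i j ≤ 2 * n ^ 5) ∧ IsNegType d ∧ ∑ i, ∑ j, d i j = 2 ∧
    (∀ g : Fin n → ℝ, 2 * (n : ℝ) ^ 3 * ∑ i, ∑ j, |g i - g j| ≤ ∑ i, ∑ j, k i j * |g i - g j|) ∧
    gap n * ∑ i, ∑ j, k i j * d i j ≤ 32 * (n : ℝ) ^ 3 := by
  obtain ⟨c, d, hc, hd, h1, hΦ, h2⟩ := exists_inst hn
  have hk := hd.negKer
  have h3 := Phi_le_cost hc hd h1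
  rw [pairSum_eq_half (fun i j => by rw [hc.1 i j, hk.symm i j]) (fun i => by simp [hk.self])]
    at h2 h3
  rw [pairSum_eq_half hk.symm hk.self] at h1
  set s : ℝ := 2 * (n : ℝ) ^ 3 with hs
  have hs0 : 0 ≤ s := by positivity
  let k : Fin n → Fin n → ℕ := fun i j => ⌈s * min (c i j / Phi c) ((n : ℝ) ^ 2)⌉₊
  have hkc : IsCap fun i j => (k i j : ℝ) :=
    ⟨fun i j => by simp only [k, hc.1 i j], fun _ _ => Nat.cast_nonneg _,
      fun i => by simp [k, hc.2.2]⟩
  have hm : ∀ i j, 0 ≤ min (c i j / Phi c) ((n : ℝ) ^ 2) := fun i j =>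
    le_min (div_nonneg (hc.2.1 i j) hΦ.le) (by positivity)
  have hφ : s ≤ Phi fun i j => (k i j : ℝ) := by
    refine le_phi hn fun S a1 a2 => ?_
    by_cases h : ∃ i ∈ S, ∃ j ∈ Sᶜ, (n : ℝ) ^ 2 ≤ c i j / Phi c
    · obtain ⟨i, hi, j, hj, h⟩ := h
      have b1 : (k i j : ℝ) ≤ ∑ i ∈ S, ∑ j ∈ Sᶜ, (k i j : ℝ) :=
        (single_le_sum (f := fun j => (k i j : ℝ)) (fun _ _ => Nat.cast_nonneg _) hj).trans
          (single_le_sum (f := fun i => ∑ j ∈ Sᶜ, (k i j : ℝ))
            (fun _ _ => sum_nonneg fun _ _ => Nat.cast_nonneg _) hi)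
      have b2 : s * (n : ℝ) ^ 2 ≤ k i j := by
        have := Nat.le_ceil (s * min (c i j / Phi c) ((n : ℝ) ^ 2))
        exact le_trans (by rw [min_eq_right h]) this
      have b3 : (S.card : ℝ) ≤ n := by exact_mod_cast (by simpa using S.card_le_univ)
      have b4 : (0 : ℝ) ≤ S.card := Nat.cast_nonneg _
      have b5 : (S.card : ℝ) * (n - S.card) ≤ (n : ℝ) ^ 2 := by nlinarith
      exact (mul_le_mul_of_nonneg_left b5 hs0).trans (b2.trans b1)
    · push Not at h
      have b1 := Phi_le hc a1 a2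
      rw [cutRatio, le_div_iff₀ (zero_lt_one.trans_le (one_le_card_mul a1 a2))] at b1
      have b2 : s / Phi c * ∑ i ∈ S, ∑ j ∈ Sᶜ, c i j ≤ ∑ i ∈ S, ∑ j ∈ Sᶜ, (k i j : ℝ) := by
        simp only [mul_sum]
        refine sum_le_sum fun i hi => sum_le_sum fun j hj => ?_
        have := Nat.le_ceil (s * min (c i j / Phi c) ((n : ℝ) ^ 2))
        refine le_trans (le_of_eq ?_) this
        rw [min_eq_left (h i hi j hj).le]; ring
      refine le_trans (le_of_eq ?_) ((mul_le_mul_of_nonneg_left b1 (by positivity)).trans b2)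
      field_simp
  refine ⟨k, d, fun i j => by simp only [k, hc.1 i j], fun i j => Nat.ceil_le.2 ?_, hd,
    by linarith, fun g => ?_, ?_⟩
  · refine (mul_le_mul_of_nonneg_left (min_le_right _ _) hs0).trans (le_of_eq ?_)
    push_cast; ring
  · exact (mul_le_mul_of_nonneg_right hφ (sum_nonneg fun _ _ => sum_nonneg fun _ _ =>
      abs_nonneg _)).trans (osc_of_phi hkc g)
  · have b1 : ∑ i, ∑ j, k i j * d i j ≤ s / Phi c * ∑ i, ∑ j, c i j * d i j + ∑ i, ∑ j, d i j := by
      simp only [mul_sum, ← sum_add_distrib]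
      refine sum_le_sum fun i _ => sum_le_sum fun j _ => ?_
      have a1 := (Nat.ceil_lt_add_one (mul_nonneg hs0 (hm i j))).le
      have a2 := mul_le_mul_of_nonneg_left (min_le_left (c i j / Phi c) ((n : ℝ) ^ 2)) hs0
      have a3 : (k i j : ℝ) ≤ s * (c i j / Phi c) + 1 := by linarith
      refine (mul_le_mul_of_nonneg_right a3 (hk.nonneg i j)).trans (le_of_eq ?_)
      ring
    set A := ∑ i, ∑ j, c i j * d i j
    have b2 : 2 ≤ s / Phi c * A := by
      rw [div_mul_eq_mul_div, le_div_iff₀ hΦ]; linarith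
    have b3 : gap n * (s / Phi c * A) ≤ 8 * s := by
      have : gap n * (s / Phi c * A) = s * (gap n * A) / Phi c := by ring
      rw [this, div_le_iff₀ hΦ]
      nlinarith
    have hg := (gap_pos hn).le
    have b4 : ∑ i, ∑ j, k i j * d i j ≤ 2 * (s / Phi c * A) := by linarith
    have := mul_le_mul_of_nonneg_left b4 hg
    linarith

theorem reduce (hn : 2 ≤ n) {N : ℕ} (hN : 36 * n ^ 11 ≤ N) :
    ∃ G : SimpleGraph (Fin N), Subcubic G ∧ 0 < glValue (edgeCap G) ∧
      gap n ≤ 10 ^ 10 * (Phi (edgeCap G) / glValue (edgeCap G)) := by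
  obtain ⟨k, d, hk, hkm, hd, hD, hP, hA⟩ := exists_int hn
  have hdk := hd.negKer
  set m := Nat.sqrt (N / (9 * n)) with hm
  have h5 : 32 ≤ n ^ 5 := by
    calc 32 = 2 ^ 5 := by norm_num
      _ ≤ n ^ 5 := Nat.pow_le_pow_left hn 5
  have hm1 : 2 * n ^ 5 ≤ m := by
    rw [hm, Nat.le_sqrt, Nat.le_div_iff_mul_le (by omega)]
    refine le_trans (le_of_eq ?_) hN
    ring
  have hn5 : n ≤ n ^ 5 := Nat.le_self_pow (by norm_num) n
  have hm2 : 9 * (n * (m * m)) ≤ N := by
    have a := Nat.sqrt_le (N / (9 * n))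
    rw [← hm, Nat.le_div_iff_mul_le (by omega)] at a
    refine le_trans (le_of_eq ?_) a
    ring
  have hm3 : N ≤ 10 * (n * (m * m)) := by
    have a := Nat.lt_succ_sqrt (N / (9 * n))
    rw [← hm, Nat.div_lt_iff_lt_mul (by omega)] at a
    have b : 9 * ((m + 1) * (m + 1)) ≤ 10 * (m * m) := by nlinarith
    have c := Nat.mul_le_mul_left n b
    simp only [Nat.succ_eq_add_one] at a
    nlinarith
  have : NeZero m := ⟨by omega⟩
  have hm0 : (0 : ℝ) < m := by exact_mod_cast NeZero.pos m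
  have hn0 : (2 : ℝ) ≤ n := by exact_mod_cast hn
  have hsn : 2 * (n : ℝ) ^ 3 * n ≤ (m : ℝ) ^ 2 := by
    have a : (2 * n ^ 5 : ℝ) ≤ m := by exact_mod_cast hm1
    have b : (n : ℝ) ^ 4 ≤ n ^ 5 := pow_le_pow_right₀ (by linarith) (by norm_num)
    have c : (1 : ℝ) ≤ m := by exact_mod_cast NeZero.pos m
    nlinarith
  obtain ⟨σ, hσ1, hσ2⟩ := cloud (m := m) k hk (fun i j => (hkm i j).trans hm1) (by omega)
    (by positivity) hsn hP
  have hcard : Fintype.card (Fin n × (ZMod m × ZMod m)) = n * (m * m) := by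
    simp [ZMod.card]
  obtain ⟨G, ρ, hG, hG1, hG2⟩ := cubic σ (by positivity) (by
    rw [hcard]
    have : 2 * (n : ℝ) ^ 3 / (m : ℝ) ^ 4 * (n * (m * m) : ℕ) = 2 * (n : ℝ) ^ 3 * n / (m : ℝ) ^ 2 := by
      push_cast; field_simp
    rw [this, div_le_one (by positivity)]
    exact hsn) (by norm_num) hσ1 (N := N) (by rwa [hcard]) (by rwa [hcard])
  obtain ⟨a1, a2⟩ := hG2 (fun x y => d x.1 y.1) (fun _ _ => hdk.nonneg _ _)
    (fun _ _ => hdk.symm _ _) fun _ => hdk.self _
  rw [hσ2 d hdk.self] at a1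
  have a3 : ∑ x : Fin n × (ZMod m × ZMod m), ∑ y : Fin n × (ZMod m × ZMod m), d x.1 y.1 =
      2 * (m : ℝ) ^ 4 := by
    simp only [Fintype.sum_prod_type (α₁ := Fin n), sum_const, card_univ, nsmul_eq_mul,
      ← mul_sum, hD, Fintype.card_prod, ZMod.card]
    push_cast; ring
  rw [a3] at a2
  have hN2 : 2 ≤ N := by
    have : 1 ≤ n ^ 11 := Nat.one_le_pow _ _ (by omega)
    omega
  have hφ : 2 * (n : ℝ) ^ 3 / (m : ℝ) ^ 4 / (2100 * 80000) ≤ Phi (edgeCap G) := by
    refine le_phi_of_osc hN2 (isCap_edgeCap G) fun f hf => ?_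
    have := hG1 f hf
    rw [div_mul_eq_mul_div, div_le_iff₀ (by norm_num)]
    linarith
  obtain ⟨b1, b2⟩ := ratio_ge (isCap_edgeCap G) (hdk.comp fun i => (ρ i).1)
    (fun i j l => hd.2 _ _ _) (lt_of_lt_of_le (by positivity) hφ) (by positivity) a1 a2
  refine ⟨G, hG, b1, ?_⟩
  rw [← mul_div_assoc, le_div_iff₀ b1]
  have c1 := mul_le_mul_of_nonneg_left b2 (gap_pos hn).le
  have c2 : gap n * glValue (edgeCap G) * (m : ℝ) ^ 4 ≤ 32 * (n : ℝ) ^ 3 := by linarith
  rw [div_div, div_le_iff₀ (by positivity)] at hφ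
  have c3 : 0 ≤ Phi (edgeCap G) * (m : ℝ) ^ 4 :=
    mul_nonneg (ARV.Phi_nonneg (isCap_edgeCap G)) (by positivity)
  refine le_of_mul_le_mul_right ?_ (show (0 : ℝ) < (m : ℝ) ^ 4 by positivity)
  nlinarith

end Vale.Agent.N318
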